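import Claimed.Agent.R256.Kin.Main

/-!
# Row 256, folder Kin: CONTRACT.     Chief: helper132.  Prefix `kin`.

ENTRY: nothing (Mathlib + `RW/FalcA` only; no model, no package, no limit).
EXIT (all PROVED, no `sorry`; constants absolute):
* `kin_main  : KinMainC`   pair form:  `∑_{n ≤ 2^k} ∑_{i,i'} m_i m_i' 1[kinCol F δ (nδ) i i'] ≤ C (k+1) δ κ ∑ m`,  `δ = (1/2)^k`.
* `kin_cells`              cell form: for ANY labellings `c n : ι → γ` whose fibres have `|·|_∞`-diameter `≤ δ` at time `nδ`: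
                           `∑_n ∑_g (mass of the fibre g)² ≤ C (k+1) δ κ ∑ m`.
* `kin_grid`               the labelling by the grid squares `(⌊(B+tX)/δ⌋, ⌊(Y+tX²)/δ⌋)` is admissible for `kin_cells`.
* `kin_cells_sqrt`         `∑_n ∑_g M_g √M_g ≤ √(2C(k+1)κ) ∑ m`      (the `3/2`-sums of 03 l.1061, l.1489 and 08 l.421).
* `KinFam.shift`, `kin_reg_shift`   other unit time intervals: the family seen from time `τ` is `κ(|τ|+2)²`-regular.
HYPOTHESIS of all: `KinReg F κ ((1/2)^j)` for `j ≤ k` (tilted boxes `R × R × R²`, mass `≤ κR³`), `|X| ≤ 1`, `m ≥ 0`, `ι` a `Fintype`.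
USES in the paper: 03 l.983, l.1061 (folder Hz), 03 l.1484-89 (folder Ce), 08 l.416-421 (folder Re).  `s^-o(1)` there is `k+1` here.
UNITS: Defs, Plans, Glue, Win, Pair, Sq, Sel, Ovl, Cov, Ker, Sup, Low, Main (1.8k lines, all on main).
-/

set_option autoImplicit false

namespace Claimed.Agent.R256

open Finset Real

section
variable {ι : Type} [Fintype ι]

/-- sum of squares of the fibre masses as a pair sum -/
theorem kin_fibre_sq {γ : Type} [DecidableEq γ] (c : ι → γ) (m : ι → ℝ) :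
    ∑ g ∈ univ.image c, (∑ i with c i = g, m i) ^ 2 = ∑ i, ∑ i', (if c i = c i' then m i * m i' else 0) := by
  have h1 : ∀ g ∈ univ.image c, (∑ i with c i = g, m i) ^ 2 = ∑ i with c i = g, ∑ i', (if c i = c i' then m i * m i' else 0) := by
    intro g _
    rw [sq, Finset.sum_mul]
    refine Finset.sum_congr rfl fun i hi => ?_
    rw [Finset.mem_filter] at hi
    rw [Finset.mul_sum, Finset.sum_filter]
    refine Finset.sum_congr rfl fun i' _ => ?_
    rw [hi.2]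
    by_cases h : c i' = g
    · rw [if_pos h, if_pos h.symm]
    · rw [if_neg h, if_neg (fun h' => h h'.symm)]
  rw [Finset.sum_congr rfl h1]
  exact Finset.sum_fiberwise_of_maps_to (fun i _ => Finset.mem_image_of_mem c (Finset.mem_univ i)) _

end

/-- **cell form of the kinetic estimate** -/
theorem kin_cells : ∃ C : ℝ, 0 < C ∧ ∀ (ι : Type) [Fintype ι] (F : KinFam ι) (κ : ℝ) (k : ℕ), 0 ≤ κ →
    (∀ j ≤ k, KinReg F κ ((1 / 2 : ℝ) ^ j)) → ∀ (γ : Type) [DecidableEq γ] (c : ℕ → ι → γ),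
    (∀ n i i', c n i = c n i' → kinCol F ((1 / 2 : ℝ) ^ k) (n * (1 / 2 : ℝ) ^ k) i i') →
    ∑ n ∈ range (2 ^ k + 1), ∑ g ∈ univ.image (c n), (∑ i with c n i = g, F.m i) ^ 2 ≤
      C * (k + 1) * (1 / 2 : ℝ) ^ k * κ * ∑ i, F.m i := by
  obtain ⟨C, hC, h⟩ := kin_main
  refine ⟨C, hC, ?_⟩
  intro ι _ F κ k hκ hreg γ _ c hc
  refine le_trans ?_ (h ι F κ k hκ hreg)
  refine Finset.sum_le_sum fun n _ => ?_
  rw [kin_fibre_sq]
  refine Finset.sum_le_sum fun i _ => Finset.sum_le_sum fun i' _ => ?_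
  have hm : 0 ≤ F.m i * F.m i' := mul_nonneg (F.m_nonneg i) (F.m_nonneg i')
  by_cases h1 : c n i = c n i'
  · rw [if_pos h1, if_pos (hc n i i' h1)]
  · rw [if_neg h1]
    split_ifs
    · exact hm
    · exact le_rfl

/-- the grid square of the ray `i` at time `t` -/
noncomputable def kinGrid {ι : Type} (F : KinFam ι) (δ t : ℝ) (i : ι) : ℤ × ℤ :=
  (⌊(F.B i + t * F.X i) / δ⌋, ⌊(F.Y i + t * F.X i ^ 2) / δ⌋)

theorem kin_floor_close {δ u v : ℝ} (hδ : 0 < δ) (h : ⌊u / δ⌋ = ⌊v / δ⌋) : |u - v| ≤ δ := by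
  have a1 : ((⌊u / δ⌋ : ℤ) : ℝ) ≤ u / δ := Int.floor_le _
  have a2 : u / δ < (⌊u / δ⌋ : ℝ) + 1 := Int.lt_floor_add_one _
  have b1 : ((⌊v / δ⌋ : ℤ) : ℝ) ≤ v / δ := Int.floor_le _
  have b2 : v / δ < (⌊v / δ⌋ : ℝ) + 1 := Int.lt_floor_add_one _
  rw [h] at a1 a2
  have e : u - v = (u / δ - v / δ) * δ := by field_simp
  rw [e, abs_mul, abs_of_pos hδ]
  have : |u / δ - v / δ| ≤ 1 := by rw [abs_le]; constructor <;> linarith
  nlinarith

/-- the grid labelling is admissible in `kin_cells` -/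
theorem kin_grid {ι : Type} (F : KinFam ι) {δ : ℝ} (hδ : 0 < δ) (t : ℝ) (i i' : ι) (h : kinGrid F δ t i = kinGrid F δ t i') :
    kinCol F δ t i i' := by
  have h1 := kin_floor_close hδ (congrArg Prod.fst h)
  have h2 := kin_floor_close hδ (congrArg Prod.snd h)
  constructor
  · have e : F.B i - F.B i' + t * (F.X i - F.X i') = F.B i + t * F.X i - (F.B i' + t * F.X i') := by ring
    rw [e]; exact h1
  · have e : F.Y i - F.Y i' + t * (F.X i ^ 2 - F.X i' ^ 2) = F.Y i + t * F.X i ^ 2 - (F.Y i' + t * F.X i' ^ 2) := by ring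
    rw [e]; exact h2

/-- **the `3/2`-sums** -/
theorem kin_cells_sqrt : ∃ C : ℝ, 0 < C ∧ ∀ (ι : Type) [Fintype ι] (F : KinFam ι) (κ : ℝ) (k : ℕ), 0 ≤ κ →
    (∀ j ≤ k, KinReg F κ ((1 / 2 : ℝ) ^ j)) → ∀ (γ : Type) [DecidableEq γ] (c : ℕ → ι → γ),
    (∀ n i i', c n i = c n i' → kinCol F ((1 / 2 : ℝ) ^ k) (n * (1 / 2 : ℝ) ^ k) i i') →
    ∑ n ∈ range (2 ^ k + 1), ∑ g ∈ univ.image (c n), (∑ i with c n i = g, F.m i) * √(∑ i with c n i = g, F.m i) ≤
      √(C * (k + 1) * κ) * ∑ i, F.m i := by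
  obtain ⟨C, hC, h⟩ := kin_cells
  refine ⟨2 * C, by positivity, ?_⟩
  intro ι _ F κ k hκ hreg γ _ c hc
  have h0 := h ι F κ k hκ hreg γ c hc
  set M : ℕ → γ → ℝ := fun n g => ∑ i with c n i = g, F.m i with hM
  have hM0 : ∀ n g, 0 ≤ M n g := fun n g => Finset.sum_nonneg fun i _ => F.m_nonneg i
  set E := ∑ i, F.m i with hE
  have hE0 : 0 ≤ E := Finset.sum_nonneg fun i _ => F.m_nonneg i
  set δ : ℝ := (1 / 2 : ℝ) ^ k with hδ
  have hδ0 : 0 < δ := by positivity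
  have hδ1 : δ * 2 ^ k = 1 := by rw [hδ, ← mul_pow]; norm_num
  -- total mass
  have hsum : ∀ n, ∑ g ∈ univ.image (c n), M n g = E := fun n =>
    Finset.sum_fiberwise_of_maps_to (fun i _ => Finset.mem_image_of_mem (c n) (Finset.mem_univ i)) F.m
  have htot : ∑ n ∈ range (2 ^ k + 1), ∑ g ∈ univ.image (c n), M n g = (2 ^ k + 1) * E := by
    rw [Finset.sum_congr rfl fun n _ => hsum n, Finset.sum_const, Finset.card_range, nsmul_eq_mul]
    push_cast
    ring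
  -- Cauchy-Schwarz on the sigma type
  have hcs : ∑ x ∈ (range (2 ^ k + 1)).sigma (fun n => univ.image (c n)), M x.1 x.2 * √(M x.1 x.2) ≤
      √(∑ x ∈ (range (2 ^ k + 1)).sigma (fun n => univ.image (c n)), M x.1 x.2 ^ 2) *
        √(∑ x ∈ (range (2 ^ k + 1)).sigma (fun n => univ.image (c n)), √(M x.1 x.2) ^ 2) :=
    Real.sum_mul_le_sqrt_mul_sqrt _ _ _
  rw [Finset.sum_sigma, Finset.sum_sigma, Finset.sum_sigma] at hcs
  have e2 : ∑ n ∈ range (2 ^ k + 1), ∑ g ∈ univ.image (c n), √(M n g) ^ 2 = (2 ^ k + 1) * E := by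
    rw [← htot]
    exact Finset.sum_congr rfl fun n _ => Finset.sum_congr rfl fun g _ => Real.sq_sqrt (hM0 n g)
  simp only [] at hcs
  rw [e2] at hcs
  refine hcs.trans ?_
  have h3 : √(∑ n ∈ range (2 ^ k + 1), ∑ g ∈ univ.image (c n), M n g ^ 2) * √((2 ^ k + 1) * E) ≤
      √(C * (k + 1) * δ * κ * E) * √((2 ^ k + 1) * E) :=
    mul_le_mul_of_nonneg_right (Real.sqrt_le_sqrt h0) (Real.sqrt_nonneg _)
  refine h3.trans ?_
  rw [← Real.sqrt_mul (by positivity)]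
  have h4 : C * (k + 1) * δ * κ * E * ((2 ^ k + 1) * E) ≤ (2 * C * (k + 1) * κ) * E ^ 2 := by
    have h5 : δ * (2 ^ k + 1) ≤ 2 := by
      have : δ ≤ 1 := pow_le_one₀ (by norm_num) (by norm_num)
      nlinarith
    have h6 : 0 ≤ C * (k + 1) * κ * E ^ 2 := by positivity
    calc C * (k + 1) * δ * κ * E * ((2 ^ k + 1) * E) = C * (k + 1) * κ * E ^ 2 * (δ * (2 ^ k + 1)) := by ring
      _ ≤ C * (k + 1) * κ * E ^ 2 * 2 := mul_le_mul_of_nonneg_left h5 h6
      _ = _ := by ring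
  refine (Real.sqrt_le_sqrt h4).trans ?_
  rw [Real.sqrt_mul (by positivity), Real.sqrt_sq hE0]

/-- the family seen from time `τ` -/
def KinFam.shift {ι : Type} (F : KinFam ι) (τ : ℝ) : KinFam ι where
  m := F.m
  X := F.X
  B := fun i => F.B i + τ * F.X i
  Y := fun i => F.Y i + τ * F.X i ^ 2
  m_nonneg := F.m_nonneg
  X_le := F.X_le

/-- regularity at another time -/
theorem kin_reg_shift {ι : Type} [Fintype ι] (F : KinFam ι) {κ R : ℝ} (hκ : 0 ≤ κ) (hR : 0 < R) (h : KinReg F κ R) (τ : ℝ) :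
    KinReg (F.shift τ) (κ * (|τ| + 2) ^ 2) R := by
  intro x b y
  have h1 := kin_cov ι F κ R hκ hR h x (b - τ * x) (y - 2 * x * b + τ * x ^ 2) (1 + |τ|) (by positivity)
  have e : κ * R ^ 3 * (1 + |τ| + 1) ^ 2 = κ * (|τ| + 2) ^ 2 * R ^ 3 := by ring
  rw [e] at h1
  refine le_trans ?_ h1
  refine Finset.sum_le_sum_of_subset_of_nonneg ?_ fun i _ _ => F.m_nonneg i
  intro i hi
  rw [Finset.mem_filter] at hi ⊢
  obtain ⟨-, a1, a2, a3⟩ := hi
  simp only [KinFam.shift] at a1 a2 a3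
  have hτ : |τ * (F.X i - x)| ≤ |τ| * R := by
    rw [abs_mul]; exact mul_le_mul_of_nonneg_left a1 (abs_nonneg _)
  have hτ2 : |τ * (F.X i - x) ^ 2| ≤ |τ| * R ^ 2 := by
    rw [abs_mul, abs_of_nonneg (sq_nonneg (F.X i - x))]
    refine mul_le_mul_of_nonneg_left ?_ (abs_nonneg _)
    rw [← sq_abs]
    exact pow_le_pow_left₀ (abs_nonneg _) a1 2
  refine ⟨Finset.mem_univ i, a1, ?_, ?_⟩
  · have e1 : F.B i - (b - τ * x) = (F.B i + τ * F.X i - b) - τ * (F.X i - x) := by ring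
    rw [e1]
    calc |(F.B i + τ * F.X i - b) - τ * (F.X i - x)| ≤ |F.B i + τ * F.X i - b| + |τ * (F.X i - x)| := abs_sub _ _
      _ ≤ R + |τ| * R := add_le_add a2 hτ
      _ = (1 + |τ|) * R := by ring
  · have e2 : F.Y i - 2 * x * F.B i - (y - 2 * x * b + τ * x ^ 2) =
        (F.Y i + τ * F.X i ^ 2 - y - 2 * x * (F.B i + τ * F.X i - b)) - τ * (F.X i - x) ^ 2 := by ring
    rw [e2]
    calc |(F.Y i + τ * F.X i ^ 2 - y - 2 * x * (F.B i + τ * F.X i - b)) - τ * (F.X i - x) ^ 2|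
        ≤ |F.Y i + τ * F.X i ^ 2 - y - 2 * x * (F.B i + τ * F.X i - b)| + |τ * (F.X i - x) ^ 2| := abs_sub _ _
      _ ≤ R ^ 2 + |τ| * R ^ 2 := add_le_add a3 hτ2
      _ = (1 + |τ|) * R ^ 2 := by ring

/-- generates the equation lemmas of the definitions above in this file (rule 6: unique names) -/
theorem kin_contract_eqns_cite : True := by
  have := @kinGrid.eq_1
  have := @KinFam.shift.eq_1
  trivial

end Claimed.Agent.R256
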