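import Claimed.Agent.R256.Kin.Contract

/-!
# Row 256, folder Kin, unit KIN-M: the kinetic estimate for MEASURES (asked by Hz, helper82).     Architect: helper132.  Prefix `kinM`.

`μ` a finite measure on a measurable space with measurable `X B Y`, `|X| ≤ 1`, tilted boxes `R × R × R²` (`R = 2^-j`, `j ≤ k`) of mass `≤ κR³`.  Then for labellings `c n : Ω → γ`
(`γ` countable, measurable fibres, fibres of `|·|_∞`-diameter `≤ δ = 2^-k` at the time `nδ`):   `∑_{n ≤ 2^k} ∑_{g ∈ D n} μ(c n = g)² ≤ C (k+1) δ κ μ(Ω)`      (`KinMeasC`; `D n` ANY finite sets of labels);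
`KinMeasGridC` = the same for the lattice squares of side `δ`.

PROOF = discretisation, NO loss in the collision tolerance.
 [M1] `KinMCovC`  (pure covering) the enlarged box `(R+h, R+h, R²+5h)`, `5h ≤ R²`, `R ≤ 1`, lies in the union of the 20 boxes of size `R` with centres
      `x_s = x + sR`, `b_u = b + uR`, `y' = y + 2 x_s u R - v R²`, `s,u ∈ {±1}`, `v ∈ {-4,-2,0,2,4}`:
      `Y - y' - 2x_s(B - b_u) = T + vR²`, `T = [Y - y - 2x(B-b)] - 2sR(B-b)`, `|T| ≤ R² + 5h + 2R(R+h) ≤ 5R²`.   `measure_mono`, `measure_biUnion_finset_le`.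
 [M2] `KinMFinC`  a measurable labelling `Λ : Ω → L` with fibres of diameter `≤ h` in each of `X, B, Y` (`5h ≤ δ²`), which refines all the `c n`.  For a finite set `S` of labels take `ι = {λ ∈ S | fibre nonempty}`,
      `m_λ = μ(Λ = λ)`, coordinates = those of a CHOSEN POINT `ω_λ` of the fibre.  Then (a) same `c n`-label ⇒ `kinCol` EXACTLY (the chosen points are points of `Ω`);
      (b) `KinReg F (20κ) R`: if `ω_λ` lies in the box `(x,b,y,R)` then `|x| ≤ 2` and the fibre lies in the enlarged box of [M1]; fibres are disjoint (`measure_biUnion_finset`).   `kin_main` + `kin_fibre_sq`.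
 [M3] `L = (ℤ × ℤ × ℤ) × (Fin (2^k+1) → γ)`, `Λ ω = (⌊X/h⌋, ⌊B/h⌋, ⌊Y/h⌋, c · ω)`, `h = δ²/5`;   `μ(c n = g) = ∑'_{λ : λ.2 n = g} μ(Λ = λ)` (`L` countable), so the finite sums over `S` converge along `atTop`; `le_of_tendsto'`.
-/

set_option autoImplicit false

namespace Claimed.Agent.R256

open Finset MeasureTheory

section
variable {Ω : Type}

/-- tilted box with three independent half widths -/
def kinMBox (X B Y : Ω → ℝ) (x b y R₁ R₂ R₃ : ℝ) : Set Ω :=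
  {ω | |X ω - x| ≤ R₁ ∧ |B ω - b| ≤ R₂ ∧ |Y ω - y - 2 * x * (B ω - b)| ≤ R₃}

/-- all tilted boxes of size `R × R × R²` have mass `≤ κ R³` -/
def KinMReg [MeasurableSpace Ω] (μ : Measure Ω) (X B Y : Ω → ℝ) (κ R : ℝ) : Prop :=
  ∀ x b y : ℝ, (μ (kinMBox X B Y x b y R R (R ^ 2))).toReal ≤ κ * R ^ 3

/-- the rays of `ω`, `ω'` are `δ`-close at time `t` -/
def kinMCol (X B Y : Ω → ℝ) (δ t : ℝ) (ω ω' : Ω) : Prop :=
  |B ω - B ω' + t * (X ω - X ω')| ≤ δ ∧ |Y ω - Y ω' + t * (X ω ^ 2 - X ω' ^ 2)| ≤ δ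

/-- the lattice square of side `δ` of the ray of `ω` at time `t` -/
noncomputable def kinMGrid (X B Y : Ω → ℝ) (δ t : ℝ) (ω : Ω) : ℤ × ℤ :=
  (⌊(B ω + t * X ω) / δ⌋, ⌊(Y ω + t * X ω ^ 2) / δ⌋)

end

/-- **the kinetic estimate for measures, cell form** -/
def KinMeasC : Prop :=
  ∃ C : ℝ, 0 < C ∧ ∀ (Ω : Type) [MeasurableSpace Ω] (μ : Measure Ω) [IsFiniteMeasure μ] (X B Y : Ω → ℝ),
    Measurable X → Measurable B → Measurable Y → (∀ ω, |X ω| ≤ 1) → ∀ (κ : ℝ) (k : ℕ), 0 ≤ κ →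
    (∀ j ≤ k, KinMReg μ X B Y κ ((1 / 2 : ℝ) ^ j)) →
    ∀ (γ : Type) [Countable γ] (c : ℕ → Ω → γ), (∀ n g, MeasurableSet (c n ⁻¹' {g})) →
    (∀ n ≤ 2 ^ k, ∀ ω ω', c n ω = c n ω' → kinMCol X B Y ((1 / 2 : ℝ) ^ k) (n * (1 / 2 : ℝ) ^ k) ω ω') →
    ∀ D : ℕ → Finset γ, ∑ n ∈ range (2 ^ k + 1), ∑ g ∈ D n, (μ (c n ⁻¹' {g})).toReal ^ 2 ≤
      C * (k + 1) * (1 / 2 : ℝ) ^ k * κ * (μ Set.univ).toReal

/-- **the kinetic estimate for measures, lattice squares** -/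
def KinMeasGridC : Prop :=
  ∃ C : ℝ, 0 < C ∧ ∀ (Ω : Type) [MeasurableSpace Ω] (μ : Measure Ω) [IsFiniteMeasure μ] (X B Y : Ω → ℝ),
    Measurable X → Measurable B → Measurable Y → (∀ ω, |X ω| ≤ 1) → ∀ (κ : ℝ) (k : ℕ), 0 ≤ κ →
    (∀ j ≤ k, KinMReg μ X B Y κ ((1 / 2 : ℝ) ^ j)) →
    ∀ D : ℕ → Finset (ℤ × ℤ), ∑ n ∈ range (2 ^ k + 1), ∑ d ∈ D n,
        (μ {ω | kinMGrid X B Y ((1 / 2 : ℝ) ^ k) (n * (1 / 2 : ℝ) ^ k) ω = d}).toReal ^ 2 ≤
      C * (k + 1) * (1 / 2 : ℝ) ^ k * κ * (μ Set.univ).toReal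

/-- [M1] covering of a slightly enlarged box -/
def KinMCovC : Prop :=
  ∀ (Ω : Type) [MeasurableSpace Ω] (μ : Measure Ω) [IsFiniteMeasure μ] (X B Y : Ω → ℝ) (κ R h : ℝ),
    0 < R → R ≤ 1 → 0 ≤ h → 5 * h ≤ R ^ 2 → KinMReg μ X B Y κ R →
    ∀ x b y : ℝ, (μ (kinMBox X B Y x b y (R + h) (R + h) (R ^ 2 + 5 * h))).toReal ≤ 20 * κ * R ^ 3

/-- [M2] the estimate for the finite sub-families of a fine measurable partition -/
def KinMFinC : Prop :=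
  ∃ C : ℝ, 0 < C ∧ ∀ (Ω : Type) [MeasurableSpace Ω] (μ : Measure Ω) [IsFiniteMeasure μ] (X B Y : Ω → ℝ),
    (∀ ω, |X ω| ≤ 1) → ∀ (κ : ℝ) (k : ℕ), 0 ≤ κ → (∀ j ≤ k, KinMReg μ X B Y κ ((1 / 2 : ℝ) ^ j)) →
    ∀ (L : Type) [DecidableEq L] (Λ : Ω → L), (∀ l, MeasurableSet (Λ ⁻¹' {l})) → ∀ h : ℝ, 0 ≤ h → 5 * h ≤ ((1 / 2 : ℝ) ^ k) ^ 2 →
    (∀ ω ω', Λ ω = Λ ω' → |X ω - X ω'| ≤ h ∧ |B ω - B ω'| ≤ h ∧ |Y ω - Y ω'| ≤ h) →
    ∀ (γ : Type) [DecidableEq γ] (c : ℕ → L → γ),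
    (∀ n ≤ 2 ^ k, ∀ ω ω', c n (Λ ω) = c n (Λ ω') → kinMCol X B Y ((1 / 2 : ℝ) ^ k) (n * (1 / 2 : ℝ) ^ k) ω ω') →
    ∀ (S : Finset L) (D : ℕ → Finset γ),
      ∑ n ∈ range (2 ^ k + 1), ∑ g ∈ D n, (∑ l ∈ S with c n l = g, (μ (Λ ⁻¹' {l})).toReal) ^ 2 ≤
        C * (k + 1) * (1 / 2 : ℝ) ^ k * κ * (μ Set.univ).toReal

/-- the lattice squares are an admissible labelling -/
theorem kinM_grid_col {Ω : Type} (X B Y : Ω → ℝ) {δ : ℝ} (hδ : 0 < δ) (t : ℝ) (ω ω' : Ω)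
    (h : kinMGrid X B Y δ t ω = kinMGrid X B Y δ t ω') : kinMCol X B Y δ t ω ω' := by
  have h1 := kin_floor_close hδ (congrArg Prod.fst h)
  have h2 := kin_floor_close hδ (congrArg Prod.snd h)
  constructor
  · have e : B ω - B ω' + t * (X ω - X ω') = B ω + t * X ω - (B ω' + t * X ω') := by ring
    rw [e]; exact h1
  · have e : Y ω - Y ω' + t * (X ω ^ 2 - X ω' ^ 2) = Y ω + t * X ω ^ 2 - (Y ω' + t * X ω' ^ 2) := by ring
    rw [e]; exact h2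

/-- the grid form follows from the cell form -/
theorem kinM_grid_of (H : KinMeasC) : KinMeasGridC := by
  obtain ⟨C, hC, H⟩ := H
  refine ⟨C, hC, ?_⟩
  intro Ω _ μ _ X B Y hX hB hY hX1 κ k hκ hreg D
  have hδ : (0 : ℝ) < (1 / 2 : ℝ) ^ k := by positivity
  refine H Ω μ X B Y hX hB hY hX1 κ k hκ hreg (ℤ × ℤ)
    (fun n ω => kinMGrid X B Y ((1 / 2 : ℝ) ^ k) (n * (1 / 2 : ℝ) ^ k) ω) ?_ ?_ D
  · intro n g
    have hm : Measurable fun ω => kinMGrid X B Y ((1 / 2 : ℝ) ^ k) (n * (1 / 2 : ℝ) ^ k) ω := by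
      unfold kinMGrid
      exact Measurable.prodMk (Int.measurable_floor.comp ((hB.add (hX.const_mul _)).div_const _))
        (Int.measurable_floor.comp ((hY.add ((hX.pow_const 2).const_mul _)).div_const _))
    exact hm (measurableSet_singleton g)
  · intro n _ ω ω' h
    exact kinM_grid_col X B Y hδ _ ω ω' h

/-- generates the equation lemmas of the definitions above in this file (rule 6: unique names) -/
theorem kinM_defs_eqns_cite : True := by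
  have := @kinMBox.eq_1
  have := @KinMReg.eq_1
  have := @kinMCol.eq_1
  have := @kinMGrid.eq_1
  have := @KinMeasC.eq_1
  have := @KinMeasGridC.eq_1
  have := @KinMCovC.eq_1
  have := @KinMFinC.eq_1
  trivial

end Claimed.Agent.R256
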