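import Claimed.Agent.R256.Kin.Meas

/-!
# Row 256, folder Kin, unit KIN-M, leaf [M2]: the kinetic estimate for the finite sub-families of a fine measurable partition.     (helper289; plan: header of `Kin/Meas.lean`.)  Prefix `kinM`.
-/

set_option autoImplicit false

namespace Claimed.Agent.R256

open Finset MeasureTheory

/-- masses of distinct fibres add up -/
theorem kinM_fibre_sum {Ω : Type} [MeasurableSpace Ω] (μ : Measure Ω) [IsFiniteMeasure μ] {L : Type} (Λ : Ω → L) (hΛ : ∀ l, MeasurableSet (Λ ⁻¹' {l}))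
    {ι : Type} (e : ι → L) (he : Function.Injective e) (T : Finset ι) :
    ∑ i ∈ T, (μ (Λ ⁻¹' {e i})).toReal = (μ (⋃ i ∈ T, Λ ⁻¹' {e i})).toReal := by
  rw [measure_biUnion_finset _ (fun i _ => hΛ (e i)), ENNReal.toReal_sum fun i _ => measure_ne_top μ _]
  intro i _ i' _ hne
  refine Set.disjoint_left.2 fun ω h1 h2 => hne (he ?_)
  have a1 : Λ ω = e i := h1
  have a2 : Λ ω = e i' := h2
  exact a1.symm.trans a2

/-- a point `h`-close to a point of a tilted box lies in the enlarged box -/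
theorem kinM_box_enl {X₀ B₀ Y₀ X₁ B₁ Y₁ x b y R h : ℝ} (hX : |X₀| ≤ 1) (hR1 : R ≤ 1) (a1 : |X₀ - x| ≤ R) (a2 : |B₀ - b| ≤ R)
    (a3 : |Y₀ - y - 2 * x * (B₀ - b)| ≤ R ^ 2) (d1 : |X₁ - X₀| ≤ h) (d2 : |B₁ - B₀| ≤ h) (d3 : |Y₁ - Y₀| ≤ h) :
    |X₁ - x| ≤ R + h ∧ |B₁ - b| ≤ R + h ∧ |Y₁ - y - 2 * x * (B₁ - b)| ≤ R ^ 2 + 5 * h := by
  have hh : 0 ≤ h := (abs_nonneg _).trans d1
  refine ⟨?_, ?_, ?_⟩
  · have e : X₁ - x = (X₀ - x) + (X₁ - X₀) := by ring
    rw [e]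
    exact (abs_add_le _ _).trans (add_le_add a1 d1)
  · have e : B₁ - b = (B₀ - b) + (B₁ - B₀) := by ring
    rw [e]
    exact (abs_add_le _ _).trans (add_le_add a2 d2)
  · have hx : |x| ≤ 2 := by
      have e : x = X₀ - (X₀ - x) := by ring
      calc |x| = |X₀ - (X₀ - x)| := by rw [← e]
        _ ≤ |X₀| + |X₀ - x| := abs_sub _ _
        _ ≤ 2 := by linarith
    have e : Y₁ - y - 2 * x * (B₁ - b) = (Y₀ - y - 2 * x * (B₀ - b)) + (Y₁ - Y₀) - 2 * x * (B₁ - B₀) := by ring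
    have t1 : |2 * x * (B₁ - B₀)| ≤ 2 * 2 * h := by
      rw [abs_mul, abs_mul, abs_of_pos (two_pos : (0 : ℝ) < 2)]
      exact mul_le_mul (mul_le_mul_of_nonneg_left hx (by norm_num)) d2 (abs_nonneg _) (by norm_num)
    rw [e]
    calc |(Y₀ - y - 2 * x * (B₀ - b)) + (Y₁ - Y₀) - 2 * x * (B₁ - B₀)|
        ≤ |(Y₀ - y - 2 * x * (B₀ - b)) + (Y₁ - Y₀)| + |2 * x * (B₁ - B₀)| := abs_sub _ _
      _ ≤ (|Y₀ - y - 2 * x * (B₀ - b)| + |Y₁ - Y₀|) + |2 * x * (B₁ - B₀)| := add_le_add (abs_add_le _ _) le_rfl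
      _ ≤ (R ^ 2 + h) + 2 * 2 * h := add_le_add (add_le_add a3 d3) t1
      _ = R ^ 2 + 5 * h := by ring

/-- **[M2]** -/
theorem kinM_fin (hcov : KinMCovC) : KinMFinC := by
  classical
  obtain ⟨C, hC, hmain⟩ := kin_main
  refine ⟨20 * C, by positivity, ?_⟩
  intro Ω _ μ _ X B Y hX1 κ k hκ hreg L _ Λ hΛ h hh h5 hdiam γ _ c hc S D
  -- the labels with a nonempty fibre, and a chosen point in each
  obtain ⟨S', hS'⟩ : ∃ S' : Finset L, S' = S.filter fun l => ∃ ω, Λ ω = l := ⟨_, rfl⟩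
  have hmemS' : ∀ l, l ∈ S' ↔ l ∈ S ∧ ∃ ω, Λ ω = l := fun l => by rw [hS', Finset.mem_filter]
  have hex : ∀ i : S', ∃ ω, Λ ω = i.1 := fun i => ((hmemS' i.1).1 i.2).2
  choose pt hpt using hex
  obtain ⟨F, hFm, hFX, hFB, hFY⟩ : ∃ F : KinFam S', (∀ i, F.m i = (μ (Λ ⁻¹' {i.1})).toReal) ∧ (∀ i, F.X i = X (pt i)) ∧ (∀ i, F.B i = B (pt i)) ∧
      (∀ i, F.Y i = Y (pt i)) :=
    ⟨{ m := fun i => (μ (Λ ⁻¹' {i.1})).toReal, X := fun i => X (pt i), B := fun i => B (pt i), Y := fun i => Y (pt i),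
       m_nonneg := fun i => ENNReal.toReal_nonneg, X_le := fun i => hX1 _ }, fun _ => rfl, fun _ => rfl, fun _ => rfl, fun _ => rfl⟩
  have hinj : Function.Injective (fun i : S' => i.1) := Subtype.val_injective
  -- regularity of the finite family
  have hregF : ∀ j ≤ k, KinReg F (20 * κ) ((1 / 2 : ℝ) ^ j) := by
    intro j hj x b y
    obtain ⟨R, hR⟩ : ∃ R : ℝ, R = (1 / 2 : ℝ) ^ j := ⟨_, rfl⟩
    rw [← hR]
    have hR0 : 0 < R := by rw [hR]; positivity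
    have hR1 : R ≤ 1 := by rw [hR]; exact pow_le_one₀ (by norm_num) (by norm_num)
    have hkj : (1 / 2 : ℝ) ^ k ≤ R := by rw [hR]; exact pow_le_pow_of_le_one (by norm_num) (by norm_num) hj
    have h5R : 5 * h ≤ R ^ 2 := h5.trans (pow_le_pow_left₀ (by positivity) hkj 2)
    have hbig := hcov Ω μ X B Y κ R h hR0 hR1 hh h5R (hR ▸ hreg j hj) x b y
    refine le_trans ?_ hbig
    rw [Finset.sum_congr rfl fun i _ => hFm i, kinM_fibre_sum μ Λ hΛ (fun i : S' => i.1) hinj]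
    refine ENNReal.toReal_mono (measure_ne_top μ _) (measure_mono ?_)
    intro ω hω
    rw [Set.mem_iUnion₂] at hω
    obtain ⟨i, hi, hωi⟩ := hω
    rw [Finset.mem_filter, hFX, hFB, hFY] at hi
    obtain ⟨-, a1, a2, a3⟩ := hi
    have hΛω : Λ ω = Λ (pt i) := by
      have : Λ ω = i.1 := hωi
      rw [this, hpt]
    obtain ⟨d1, d2, d3⟩ := hdiam ω (pt i) hΛω
    exact kinM_box_enl (hX1 _) hR1 a1 a2 a3 d1 d2 d3
  have hm := hmain S' F (20 * κ) k (by positivity) hregF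
  -- total mass
  have htot : ∑ i, F.m i ≤ (μ Set.univ).toReal := by
    rw [Finset.sum_congr rfl fun i _ => hFm i, kinM_fibre_sum μ Λ hΛ (fun i : S' => i.1) hinj]
    exact ENNReal.toReal_mono (measure_ne_top μ _) (measure_mono (Set.subset_univ _))
  -- the fibre masses
  have hE1 : ∀ n g, ∑ l ∈ S with c n l = g, (μ (Λ ⁻¹' {l})).toReal = ∑ i : S' with c n i.1 = g, F.m i := by
    intro n g
    have r : ∑ i : S' with c n i.1 = g, F.m i = ∑ l ∈ S', if c n l = g then (μ (Λ ⁻¹' {l})).toReal else 0 := by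
      rw [Finset.sum_filter, ← Finset.sum_coe_sort S' (fun l => if c n l = g then (μ (Λ ⁻¹' {l})).toReal else 0)]
      exact Finset.sum_congr rfl fun i _ => by rw [hFm i]
    rw [Finset.sum_filter, r]
    symm
    refine Finset.sum_subset (fun l hl => ((hmemS' l).1 hl).1) fun l hl hnot => ?_
    have hemp : Λ ⁻¹' {l} = ∅ := by
      rw [Set.eq_empty_iff_forall_notMem]
      intro ω hω
      exact hnot ((hmemS' l).2 ⟨hl, ω, hω⟩)
    rw [hemp, measure_empty, ENNReal.toReal_zero, ite_self]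
  have hstep : ∀ n ∈ range (2 ^ k + 1), ∑ g ∈ D n, (∑ l ∈ S with c n l = g, (μ (Λ ⁻¹' {l})).toReal) ^ 2 ≤
      ∑ i, ∑ i', (if kinCol F ((1 / 2 : ℝ) ^ k) (n * (1 / 2 : ℝ) ^ k) i i' then F.m i * F.m i' else 0) := by
    intro n hn
    have hn' : n ≤ 2 ^ k := Nat.lt_succ_iff.1 (Finset.mem_range.1 hn)
    rw [Finset.sum_congr rfl fun g _ => by rw [hE1 n g]]
    have h1 : ∑ g ∈ D n, (∑ i : S' with c n i.1 = g, F.m i) ^ 2 ≤ ∑ g ∈ univ.image (fun i : S' => c n i.1), (∑ i : S' with c n i.1 = g, F.m i) ^ 2 := by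
      rw [← Finset.sum_filter_of_ne (s := D n) (p := fun g => g ∈ univ.image (fun i : S' => c n i.1))]
      · refine Finset.sum_le_sum_of_subset_of_nonneg (fun g hg => (Finset.mem_filter.1 hg).2) fun g _ _ => sq_nonneg _
      · intro g _ hne
        by_contra hg
        apply hne
        have : (univ.filter fun i : S' => c n i.1 = g) = ∅ := by
          rw [Finset.filter_eq_empty_iff]
          intro i _ hi
          exact hg (Finset.mem_image.2 ⟨i, Finset.mem_univ i, hi⟩)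
        rw [this, Finset.sum_empty]
        norm_num
    refine h1.trans ?_
    rw [kin_fibre_sq (fun i : S' => c n i.1) F.m]
    refine Finset.sum_le_sum fun i _ => Finset.sum_le_sum fun i' _ => ?_
    have hmm : 0 ≤ F.m i * F.m i' := mul_nonneg (F.m_nonneg i) (F.m_nonneg i')
    by_cases h2 : c n i.1 = c n i'.1
    · have hcol : kinCol F ((1 / 2 : ℝ) ^ k) (n * (1 / 2 : ℝ) ^ k) i i' := by
        have := hc n hn' (pt i) (pt i') (by rw [hpt, hpt]; exact h2)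
        unfold kinCol
        rw [hFX, hFX, hFB, hFB, hFY, hFY]
        exact this
      rw [if_pos h2, if_pos hcol]
    · rw [if_neg h2]
      split_ifs
      · exact hmm
      · exact le_rfl
  calc ∑ n ∈ range (2 ^ k + 1), ∑ g ∈ D n, (∑ l ∈ S with c n l = g, (μ (Λ ⁻¹' {l})).toReal) ^ 2
      ≤ ∑ n ∈ range (2 ^ k + 1), ∑ i, ∑ i', (if kinCol F ((1 / 2 : ℝ) ^ k) (n * (1 / 2 : ℝ) ^ k) i i' then F.m i * F.m i' else 0) :=
        Finset.sum_le_sum hstep
    _ ≤ C * (k + 1) * (1 / 2 : ℝ) ^ k * (20 * κ) * ∑ i, F.m i := hm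
    _ ≤ C * (k + 1) * (1 / 2 : ℝ) ^ k * (20 * κ) * (μ Set.univ).toReal := mul_le_mul_of_nonneg_left htot (by positivity)
    _ = 20 * C * (k + 1) * (1 / 2 : ℝ) ^ k * κ * (μ Set.univ).toReal := by ring

end Claimed.Agent.R256
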