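import Claimed.Agent.R256.Kin.Meas

/-!
# Row 256, folder Kin, unit KIN-M, leaf [M3]: from the finite sub-families of a fine countable partition to the measure.     (helper289; plan: header of `Kin/Meas.lean`.)  Prefix `kinM`.
-/

set_option autoImplicit false

namespace Claimed.Agent.R256

open Finset MeasureTheory Filter Topology

/-- the mass of a union of fibres of a countable measurable labelling is the sum of the masses of the fibres -/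
theorem kinM_hasSum {Ω L : Type} [MeasurableSpace Ω] [Countable L] (μ : Measure Ω) [IsFiniteMeasure μ] (Λ : Ω → L) (hΛ : ∀ l, MeasurableSet (Λ ⁻¹' {l}))
    (P : L → Prop) [DecidablePred P] : HasSum (fun l => if P l then (μ (Λ ⁻¹' {l})).toReal else 0) (μ {ω | P (Λ ω)}).toReal := by
  obtain ⟨A, hA⟩ : ∃ A : L → Set Ω, A = fun l => if P l then Λ ⁻¹' {l} else ∅ := ⟨_, rfl⟩
  have hAm : ∀ l, MeasurableSet (A l) := fun l => by
    rw [hA]
    dsimp only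
    split_ifs
    · exact hΛ l
    · exact MeasurableSet.empty
  have hAsub : ∀ l, A l ⊆ Λ ⁻¹' {l} := fun l => by
    rw [hA]
    dsimp only
    split_ifs
    · exact subset_rfl
    · exact Set.empty_subset _
  have hAd : Pairwise (Function.onFun Disjoint A) := fun l l' hne =>
    Set.disjoint_left.2 fun ω h1 h2 => hne ((show Λ ω = l from hAsub l h1).symm.trans (show Λ ω = l' from hAsub l' h2))
  have hU : {ω | P (Λ ω)} = ⋃ l, A l := by
    ext ω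
    rw [Set.mem_iUnion]
    constructor
    · intro hω
      refine ⟨Λ ω, ?_⟩
      rw [hA]
      dsimp only
      rw [if_pos (show P (Λ ω) from hω)]
      rfl
    · rintro ⟨l, hl⟩
      have h1 : Λ ω = l := hAsub l hl
      rw [hA] at hl
      dsimp only at hl
      by_cases hP : P l
      · show P (Λ ω)
        rw [h1]
        exact hP
      · rw [if_neg hP] at hl
        exact absurd hl (Set.notMem_empty ω)
  have hμ : μ {ω | P (Λ ω)} = ∑' l, μ (A l) := by rw [hU, measure_iUnion hAd hAm]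
  have hne : ∑' l, μ (A l) ≠ ⊤ := hμ ▸ measure_ne_top μ _
  have h1 := ENNReal.hasSum_toReal hne
  rw [← ENNReal.tsum_toReal_eq fun l => measure_ne_top μ _, ← hμ] at h1
  have e : (fun l => (μ (A l)).toReal) = fun l => if P l then (μ (Λ ⁻¹' {l})).toReal else 0 := by
    funext l
    rw [hA]
    dsimp only
    split_ifs
    · rfl
    · rw [measure_empty, ENNReal.toReal_zero]
  rwa [e] at h1

/-- **[M3]** -/
theorem kinM_lim (H : KinMFinC) : KinMeasC := by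
  classical
  obtain ⟨C, hC, H⟩ := H
  refine ⟨C, hC, ?_⟩
  intro Ω _ μ _ X B Y hX hB hY hX1 κ k hκ hreg γ _ c hcm hcol D
  have hδ0 : (0 : ℝ) < (1 / 2 : ℝ) ^ k := by positivity
  obtain ⟨h, hh⟩ : ∃ h : ℝ, h = ((1 / 2 : ℝ) ^ k) ^ 2 / 5 := ⟨_, rfl⟩
  have hh0 : 0 < h := by rw [hh]; positivity
  have h5 : 5 * h ≤ ((1 / 2 : ℝ) ^ k) ^ 2 := by rw [hh]; linarith
  obtain ⟨Λ, hΛ⟩ : ∃ Λ : Ω → (ℤ × ℤ × ℤ) × (Fin (2 ^ k + 1) → γ), Λ = fun ω => ((⌊X ω / h⌋, ⌊B ω / h⌋, ⌊Y ω / h⌋), fun n : Fin (2 ^ k + 1) => c n ω) := ⟨_, rfl⟩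
  have hΛiff : ∀ ω l, Λ ω = l ↔ ⌊X ω / h⌋ = l.1.1 ∧ ⌊B ω / h⌋ = l.1.2.1 ∧ ⌊Y ω / h⌋ = l.1.2.2 ∧ ∀ n : Fin (2 ^ k + 1), c n ω = l.2 n := by
    intro ω l
    rw [hΛ]
    simp only [Prod.ext_iff, funext_iff]
    tauto
  have hΛm : ∀ l, MeasurableSet (Λ ⁻¹' {l}) := by
    intro l
    have e : Λ ⁻¹' {l} = ((fun ω => ⌊X ω / h⌋) ⁻¹' {l.1.1}) ∩ (((fun ω => ⌊B ω / h⌋) ⁻¹' {l.1.2.1}) ∩ (((fun ω => ⌊Y ω / h⌋) ⁻¹' {l.1.2.2}) ∩
        ⋂ n : Fin (2 ^ k + 1), c n ⁻¹' {l.2 n})) := by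
      ext ω
      simp only [Set.mem_preimage, Set.mem_singleton_iff, Set.mem_inter_iff, Set.mem_iInter]
      exact hΛiff ω l
    rw [e]
    exact ((hX.div_const h).floor (measurableSet_singleton _)).inter (((hB.div_const h).floor (measurableSet_singleton _)).inter
      (((hY.div_const h).floor (measurableSet_singleton _)).inter (MeasurableSet.iInter fun n => hcm n _)))
  have hdiam : ∀ ω ω', Λ ω = Λ ω' → |X ω - X ω'| ≤ h ∧ |B ω - B ω'| ≤ h ∧ |Y ω - Y ω'| ≤ h := by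
    intro ω ω' hωω
    obtain ⟨a1, a2, a3, -⟩ := (hΛiff ω (Λ ω')).1 hωω
    obtain ⟨b1, b2, b3, -⟩ := (hΛiff ω' (Λ ω')).1 rfl
    exact ⟨kin_floor_close hh0 (a1.trans b1.symm), kin_floor_close hh0 (a2.trans b2.symm), kin_floor_close hh0 (a3.trans b3.symm)⟩
  obtain ⟨c', hc'⟩ : ∃ c' : ℕ → (ℤ × ℤ × ℤ) × (Fin (2 ^ k + 1) → γ) → γ, c' = fun n l => l.2 ⟨min n (2 ^ k), Nat.lt_succ_of_le (min_le_right _ _)⟩ := ⟨_, rfl⟩
  have hcc : ∀ n ≤ 2 ^ k, ∀ ω, c' n (Λ ω) = c n ω := by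
    intro n hn ω
    obtain ⟨-, -, -, b4⟩ := (hΛiff ω (Λ ω)).1 rfl
    rw [hc']
    dsimp only
    rw [← b4]
    show c (min n (2 ^ k)) ω = c n ω
    rw [min_eq_left hn]
  have hcol' : ∀ n ≤ 2 ^ k, ∀ ω ω', c' n (Λ ω) = c' n (Λ ω') → kinMCol X B Y ((1 / 2 : ℝ) ^ k) (n * (1 / 2 : ℝ) ^ k) ω ω' := by
    intro n hn ω ω' hωω
    rw [hcc n hn, hcc n hn] at hωω
    exact hcol n hn ω ω' hωω
  have hfin := H Ω μ X B Y hX1 κ k hκ hreg _ Λ hΛm h hh0.le h5 hdiam γ c' hcol'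
  have ht : Tendsto (fun S : Finset ((ℤ × ℤ × ℤ) × (Fin (2 ^ k + 1) → γ)) =>
      ∑ n ∈ range (2 ^ k + 1), ∑ g ∈ D n, (∑ l ∈ S with c' n l = g, (μ (Λ ⁻¹' {l})).toReal) ^ 2) atTop
      (𝓝 (∑ n ∈ range (2 ^ k + 1), ∑ g ∈ D n, (μ (c n ⁻¹' {g})).toReal ^ 2)) := by
    refine tendsto_finsetSum _ fun n hn => tendsto_finsetSum _ fun g _ => Tendsto.pow ?_ 2
    have hn' : n ≤ 2 ^ k := Nat.lt_succ_iff.1 (Finset.mem_range.1 hn)
    have hs := kinM_hasSum μ Λ hΛm (fun l => c' n l = g)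
    have e : {ω | c' n (Λ ω) = g} = c n ⁻¹' {g} := by
      ext ω
      show c' n (Λ ω) = g ↔ c n ω = g
      rw [hcc n hn']
    rw [e] at hs
    have hs' : Tendsto (fun S : Finset ((ℤ × ℤ × ℤ) × (Fin (2 ^ k + 1) → γ)) => ∑ l ∈ S, if c' n l = g then (μ (Λ ⁻¹' {l})).toReal else 0) atTop
        (𝓝 (μ (c n ⁻¹' {g})).toReal) := hs
    refine hs'.congr fun S => ?_
    rw [Finset.sum_filter]
  exact le_of_tendsto' ht fun S => hfin S D

end Claimed.Agent.R256
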