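import Claimed.Agent.R256.Kin.MCov
import Claimed.Agent.R256.Kin.MFin
import Claimed.Agent.R256.Kin.MLim

/-!
# Row 256, folder Kin, unit KIN-M: EXIT.  The kinetic estimate for measures (asked by Hz, helper82).     (helper289 for the chief helper132.)  No `sorry`.

* `kin_meas      : KinMeasC`        cell form   (`Kin/Meas.lean`)
* `kin_meas_grid : KinMeasGridC`    lattice squares
* `kin_meas_ae`, `kin_meas_grid_ae` the same statements with `∀ᵐ ω ∂μ, |X ω| ≤ 1` instead of `∀ ω, |X ω| ≤ 1`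
  (proof: on the null set `{|X| > 1}` put `X = B = Y = 0` and give all its points one new label).
-/

set_option autoImplicit false

namespace Claimed.Agent.R256

open Finset MeasureTheory

/-- **the kinetic estimate for measures, cell form** -/
theorem kin_meas : KinMeasC := kinM_lim (kinM_fin kinM_cov)

/-- **the kinetic estimate for measures, lattice squares** -/
theorem kin_meas_grid : KinMeasGridC := kinM_grid_of kin_meas

/-- two sets which agree on a set of full measure have the same measure -/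
theorem kinM_null_eq {Ω : Type} [MeasurableSpace Ω] {μ : Measure Ω} {G A A' : Set Ω} (hG0 : μ Gᶜ = 0) (h : ∀ ω ∈ G, ω ∈ A ↔ ω ∈ A') : μ A = μ A' := by
  have key : ∀ A A' : Set Ω, (∀ ω ∈ G, ω ∈ A → ω ∈ A') → μ A ≤ μ A' := by
    intro A A' h
    have hsub : A ⊆ A' ∪ Gᶜ := fun ω hω => by
      by_cases hG : ω ∈ G
      · exact Or.inl (h ω hG hω)
      · exact Or.inr hG
    calc μ A ≤ μ (A' ∪ Gᶜ) := measure_mono hsub
      _ ≤ μ A' + μ Gᶜ := measure_union_le _ _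
      _ = μ A' := by rw [hG0, add_zero]
  exact le_antisymm (key A A' fun ω hG => (h ω hG).1) (key A' A fun ω hG => (h ω hG).2)

/-- **the kinetic estimate for measures, cell form**, `|X| ≤ 1` almost everywhere -/
theorem kin_meas_ae : ∃ C : ℝ, 0 < C ∧ ∀ (Ω : Type) [MeasurableSpace Ω] (μ : Measure Ω) [IsFiniteMeasure μ] (X B Y : Ω → ℝ),
    Measurable X → Measurable B → Measurable Y → (∀ᵐ ω ∂μ, |X ω| ≤ 1) → ∀ (κ : ℝ) (k : ℕ), 0 ≤ κ →
    (∀ j ≤ k, KinMReg μ X B Y κ ((1 / 2 : ℝ) ^ j)) →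
    ∀ (γ : Type) [Countable γ] (c : ℕ → Ω → γ), (∀ n g, MeasurableSet (c n ⁻¹' {g})) →
    (∀ n ≤ 2 ^ k, ∀ ω ω', c n ω = c n ω' → kinMCol X B Y ((1 / 2 : ℝ) ^ k) (n * (1 / 2 : ℝ) ^ k) ω ω') →
    ∀ D : ℕ → Finset γ, ∑ n ∈ range (2 ^ k + 1), ∑ g ∈ D n, (μ (c n ⁻¹' {g})).toReal ^ 2 ≤
      C * (k + 1) * (1 / 2 : ℝ) ^ k * κ * (μ Set.univ).toReal := by
  classical
  obtain ⟨C, hC, H⟩ := kin_meas
  refine ⟨C, hC, ?_⟩
  intro Ω _ μ _ X B Y hX hB hY hX1 κ k hκ hreg γ _ c hcm hcol D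
  obtain ⟨G, hG⟩ : ∃ G : Set Ω, G = {ω | |X ω| ≤ 1} := ⟨_, rfl⟩
  have hGm : MeasurableSet G := by
    rw [hG]
    exact measurableSet_le (continuous_abs.measurable.comp hX) measurable_const
  have hG0 : μ Gᶜ = 0 := by
    rw [hG]
    exact hX1
  have hin : ∀ (f : Ω → ℝ) ω, ω ∈ G → G.indicator f ω = f ω := fun f ω hω => Set.indicator_of_mem hω f
  have hout : ∀ (f : Ω → ℝ) ω, ω ∉ G → G.indicator f ω = 0 := fun f ω hω => Set.indicator_of_notMem hω f
  have hX1' : ∀ ω, |G.indicator X ω| ≤ 1 := by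
    intro ω
    by_cases hω : ω ∈ G
    · rw [hin X ω hω]
      rw [hG] at hω
      exact hω
    · rw [hout X ω hω, abs_zero]
      exact zero_le_one
  have hreg' : ∀ j ≤ k, KinMReg μ (G.indicator X) (G.indicator B) (G.indicator Y) κ ((1 / 2 : ℝ) ^ j) := by
    intro j hj x b y
    have e : μ (kinMBox (G.indicator X) (G.indicator B) (G.indicator Y) x b y ((1 / 2 : ℝ) ^ j) ((1 / 2 : ℝ) ^ j) (((1 / 2 : ℝ) ^ j) ^ 2)) =
        μ (kinMBox X B Y x b y ((1 / 2 : ℝ) ^ j) ((1 / 2 : ℝ) ^ j) (((1 / 2 : ℝ) ^ j) ^ 2)) := by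
      refine kinM_null_eq hG0 fun ω hω => ?_
      unfold kinMBox
      show (_ ∧ _ ∧ _) ↔ (_ ∧ _ ∧ _)
      rw [hin X ω hω, hin B ω hω, hin Y ω hω]
    rw [e]
    exact hreg j hj x b y
  obtain ⟨c', hc'⟩ : ∃ c' : ℕ → Ω → Option γ, c' = fun n ω => if ω ∈ G then some (c n ω) else none := ⟨_, rfl⟩
  have hc'in : ∀ n ω, ω ∈ G → c' n ω = some (c n ω) := fun n ω hω => by rw [hc']; exact if_pos hω
  have hc'out : ∀ n ω, ω ∉ G → c' n ω = none := fun n ω hω => by rw [hc']; exact if_neg hω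
  have hfib : ∀ n g, c' n ⁻¹' {some g} = G ∩ c n ⁻¹' {g} := by
    intro n g
    ext ω
    show c' n ω = some g ↔ ω ∈ G ∧ c n ω = g
    by_cases hω : ω ∈ G
    · rw [hc'in n ω hω, Option.some_inj]
      exact ⟨fun h => ⟨hω, h⟩, fun h => h.2⟩
    · rw [hc'out n ω hω]
      exact ⟨fun h => absurd h (by simp), fun h => absurd h.1 hω⟩
  have hcm' : ∀ n g, MeasurableSet (c' n ⁻¹' {g}) := by
    intro n g
    cases g with
    | none =>
      have : c' n ⁻¹' {none} = Gᶜ := by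
        ext ω
        show c' n ω = none ↔ ω ∉ G
        by_cases hω : ω ∈ G
        · rw [hc'in n ω hω]
          exact ⟨fun h => absurd h (by simp), fun h => absurd hω h⟩
        · rw [hc'out n ω hω]
          exact ⟨fun _ => hω, fun _ => rfl⟩
      rw [this]
      exact hGm.compl
    | some g =>
      rw [hfib]
      exact hGm.inter (hcm n g)
  have hcol' : ∀ n ≤ 2 ^ k, ∀ ω ω', c' n ω = c' n ω' →
      kinMCol (G.indicator X) (G.indicator B) (G.indicator Y) ((1 / 2 : ℝ) ^ k) (n * (1 / 2 : ℝ) ^ k) ω ω' := by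
    intro n hn ω ω' hωω
    unfold kinMCol
    by_cases hω : ω ∈ G
    · by_cases hω' : ω' ∈ G
      · rw [hc'in n ω hω, hc'in n ω' hω', Option.some_inj] at hωω
        rw [hin X ω hω, hin B ω hω, hin Y ω hω, hin X ω' hω', hin B ω' hω', hin Y ω' hω']
        exact hcol n hn ω ω' hωω
      · rw [hc'in n ω hω, hc'out n ω' hω'] at hωω
        exact absurd hωω (by simp)
    · by_cases hω' : ω' ∈ G
      · rw [hc'out n ω hω, hc'in n ω' hω'] at hωω
        exact absurd hωω (by simp)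
      · rw [hout X ω hω, hout B ω hω, hout Y ω hω, hout X ω' hω', hout B ω' hω', hout Y ω' hω']
        norm_num
  have hmain := H Ω μ (G.indicator X) (G.indicator B) (G.indicator Y) (hX.indicator hGm) (hB.indicator hGm) (hY.indicator hGm) hX1' κ k hκ hreg'
    (Option γ) c' hcm' hcol' (fun n => (D n).map Function.Embedding.some)
  refine le_trans (le_of_eq ?_) hmain
  refine Finset.sum_congr rfl fun n _ => ?_
  rw [Finset.sum_map]
  refine Finset.sum_congr rfl fun g _ => ?_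
  have e : μ (c' n ⁻¹' {Function.Embedding.some g}) = μ (c n ⁻¹' {g}) := by
    show μ (c' n ⁻¹' {some g}) = _
    rw [hfib]
    exact kinM_null_eq hG0 fun ω hω => ⟨fun h => h.2, fun h => ⟨hω, h⟩⟩
  rw [e]

/-- **the kinetic estimate for measures, lattice squares**, `|X| ≤ 1` almost everywhere -/
theorem kin_meas_grid_ae : ∃ C : ℝ, 0 < C ∧ ∀ (Ω : Type) [MeasurableSpace Ω] (μ : Measure Ω) [IsFiniteMeasure μ] (X B Y : Ω → ℝ),
    Measurable X → Measurable B → Measurable Y → (∀ᵐ ω ∂μ, |X ω| ≤ 1) → ∀ (κ : ℝ) (k : ℕ), 0 ≤ κ →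
    (∀ j ≤ k, KinMReg μ X B Y κ ((1 / 2 : ℝ) ^ j)) →
    ∀ D : ℕ → Finset (ℤ × ℤ), ∑ n ∈ range (2 ^ k + 1), ∑ d ∈ D n,
        (μ {ω | kinMGrid X B Y ((1 / 2 : ℝ) ^ k) (n * (1 / 2 : ℝ) ^ k) ω = d}).toReal ^ 2 ≤
      C * (k + 1) * (1 / 2 : ℝ) ^ k * κ * (μ Set.univ).toReal := by
  obtain ⟨C, hC, H⟩ := kin_meas_ae
  refine ⟨C, hC, ?_⟩
  intro Ω _ μ _ X B Y hX hB hY hX1 κ k hκ hreg D
  have hδ : (0 : ℝ) < (1 / 2 : ℝ) ^ k := by positivity
  refine H Ω μ X B Y hX hB hY hX1 κ k hκ hreg (ℤ × ℤ)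
    (fun n ω => kinMGrid X B Y ((1 / 2 : ℝ) ^ k) (n * (1 / 2 : ℝ) ^ k) ω) ?_ ?_ D
  · intro n g
    have hm : Measurable fun ω => kinMGrid X B Y ((1 / 2 : ℝ) ^ k) (n * (1 / 2 : ℝ) ^ k) ω := by
      unfold kinMGrid
      exact Measurable.prodMk (Int.measurable_floor.comp ((hB.add (hX.const_mul _)).div_const _))
        (Int.measurable_floor.comp ((hY.add ((hX.pow_const 2).const_mul _)).div_const _))
    exact hm (measurableSet_singleton g)
  · intro n _ ω ω' h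
    exact kinM_grid_col X B Y hδ _ ω ω' h

end Claimed.Agent.R256
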