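import Claimed.Agent.R256.Kin.Plans

/-!
# Row 256, unit KIN, leaf [COV]: a box of size `R × TR × TR²` is covered by `(T+1)²` regularity boxes.     helper284.  Prefix `kin_cov`.
-/

set_option autoImplicit false

namespace Claimed.Agent.R256

open Finset MeasureTheory Real

/-- the cell of `u ∈ [-Tρ, Tρ]` in the partition into `⌊T⌋₊+1` intervals of length `2ρ` -/
theorem kin_cov_cell {T ρ u : ℝ} (hρ : 0 < ρ) (hu : |u| ≤ T * ρ) :
    ⌊(u + T * ρ) / (2 * ρ)⌋₊ < ⌊T⌋₊ + 1 ∧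
      |u - (-(T * ρ) + (2 * (⌊(u + T * ρ) / (2 * ρ)⌋₊ : ℝ) + 1) * ρ)| ≤ ρ := by
  obtain ⟨h1, h2⟩ := abs_le.1 hu
  have h2ρ : 0 < 2 * ρ := by positivity
  set s := (u + T * ρ) / (2 * ρ) with hs
  have hs0 : 0 ≤ s := div_nonneg (by linarith) h2ρ.le
  have hsT : s ≤ T := by
    rw [hs, div_le_iff₀ h2ρ]
    linarith
  have hus : u + T * ρ = s * (2 * ρ) := by
    rw [hs]
    field_simp
  have f1 : (⌊s⌋₊ : ℝ) ≤ s := Nat.floor_le hs0
  have f2 : s < ⌊s⌋₊ + 1 := Nat.lt_floor_add_one s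
  refine ⟨Nat.lt_succ_of_le (Nat.floor_le_floor hsT), abs_le.2 ⟨?_, ?_⟩⟩
  · nlinarith
  · nlinarith

/-- [COV] -/
theorem kin_cov : KinCovC := by
  intro ι _ F κ R hκ hR hreg x b w T hT
  have hR2 : 0 < R ^ 2 := by positivity
  set N := ⌊T⌋₊ + 1 with hN
  set g : ι → ℕ × ℕ := fun i =>
    (⌊(F.B i - b + T * R) / (2 * R)⌋₊, ⌊(F.Y i - 2 * x * F.B i - w + T * R ^ 2) / (2 * R ^ 2)⌋₊) with hg
  have hmaps : ∀ i ∈ univ.filter (fun i => |F.X i - x| ≤ R ∧ |F.B i - b| ≤ T * R ∧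
      |F.Y i - 2 * x * F.B i - w| ≤ T * R ^ 2), g i ∈ range N ×ˢ range N := by
    intro i hi
    simp only [Finset.mem_filter, Finset.mem_univ, true_and] at hi
    rw [Finset.mem_product, Finset.mem_range, Finset.mem_range]
    exact ⟨(kin_cov_cell hR hi.2.1).1, (kin_cov_cell hR2 hi.2.2).1⟩
  rw [← Finset.sum_fiberwise_of_maps_to hmaps]
  have hfib : ∀ p ∈ range N ×ˢ range N,
      ∑ i ∈ (univ.filter (fun i => |F.X i - x| ≤ R ∧ |F.B i - b| ≤ T * R ∧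
        |F.Y i - 2 * x * F.B i - w| ≤ T * R ^ 2)).filter (fun i => g i = p), F.m i ≤ κ * R ^ 3 := by
    intro p _
    refine (Finset.sum_le_sum_of_subset_of_nonneg ?_ fun i _ _ => F.m_nonneg i).trans
      (hreg x (b + (-(T * R) + (2 * (p.1 : ℝ) + 1) * R))
        (w + (-(T * R ^ 2) + (2 * (p.2 : ℝ) + 1) * R ^ 2)
          + 2 * x * (b + (-(T * R) + (2 * (p.1 : ℝ) + 1) * R))))
    intro i hi
    simp only [Finset.mem_filter, Finset.mem_univ, true_and] at hi ⊢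
    obtain ⟨⟨hX, hB, hY⟩, rfl⟩ := hi
    refine ⟨hX, ?_, ?_⟩
    · have := (kin_cov_cell hR hB).2
      rw [show F.B i - (b + (-(T * R) + (2 * ((g i).1 : ℝ) + 1) * R))
        = F.B i - b - (-(T * R) + (2 * ((g i).1 : ℝ) + 1) * R) by ring]
      exact this
    · have := (kin_cov_cell hR2 hY).2
      rw [show F.Y i - (w + (-(T * R ^ 2) + (2 * ((g i).2 : ℝ) + 1) * R ^ 2)
          + 2 * x * (b + (-(T * R) + (2 * ((g i).1 : ℝ) + 1) * R)))
          - 2 * x * (F.B i - (b + (-(T * R) + (2 * ((g i).1 : ℝ) + 1) * R)))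
        = F.Y i - 2 * x * F.B i - w - (-(T * R ^ 2) + (2 * ((g i).2 : ℝ) + 1) * R ^ 2) by ring]
      exact this
  refine (Finset.sum_le_sum hfib).trans ?_
  rw [Finset.sum_const, Finset.card_product, Finset.card_range, nsmul_eq_mul]
  have hNT : (N : ℝ) ≤ T + 1 := by
    rw [hN]
    push_cast
    linarith [Nat.floor_le hT]
  have hN0 : (0 : ℝ) ≤ N := Nat.cast_nonneg N
  have hc : 0 ≤ κ * R ^ 3 := by positivity
  push_cast
  have : (N : ℝ) * N ≤ (T + 1) ^ 2 := by nlinarith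
  nlinarith

end Claimed.Agent.R256
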