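import Claimed.Agent.R256.Kin.Plans

/-!
# Row 256, unit KIN, leaf [KER]: the kernel sum over a dyadic fibre at a fixed time.      Prover: helper62 (architect helper132).  Prefix `kin_ker`.

`kin_ker_gauss` : `exp(-9πy²) ≤ e^π ∫ 1[|y-z| ≤ 1] exp(-πz²) dz`.
`kin_ker_sum`   : if `∑_{i : |y_i - z| ≤ 1} c_i ≤ M` for all `z` then `∑ c_i exp(-9πy_i²) ≤ e^π M`.
`kin_ker`       : `KinCovC → KinKerC` (`kin_ker_sum` twice, then [COV] with `T = 1 + |t|`).
-/

set_option autoImplicit false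

namespace Claimed.Agent.R256

open Finset MeasureTheory Real
open Claimed.Agent.RW (faG faK)

theorem kin_ker_integrable (y : ℝ) :
    Integrable (Set.indicator (Set.Icc (y - 1) (y + 1)) fun z : ℝ => exp (-(π * z ^ 2))) := by
  have hc : Continuous fun z : ℝ => exp (-(π * z ^ 2)) := by fun_prop
  exact (hc.integrableOn_Icc).integrable_indicator measurableSet_Icc

theorem kin_ker_gauss (y : ℝ) :
    exp (-(9 * π * y ^ 2)) ≤
      exp π * ∫ z, Set.indicator (Set.Icc (y - 1) (y + 1)) (fun z : ℝ => exp (-(π * z ^ 2))) z := by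
  have hc : Continuous fun z : ℝ => exp (-(π * z ^ 2)) := by fun_prop
  -- an interval of length one inside the window on which `z² ≤ y² + 1`
  obtain ⟨a, ha1, ha2, ha3⟩ : ∃ a : ℝ, y - 1 ≤ a ∧ a + 1 ≤ y + 1 ∧ ∀ z ∈ Set.Icc a (a + 1), z ^ 2 ≤ y ^ 2 + 1 := by
    rcases le_total 0 y with hy | hy
    · refine ⟨y - 1, le_rfl, by linarith, fun z hz => ?_⟩
      obtain ⟨h1, h2⟩ := hz
      nlinarith
    · refine ⟨y, by linarith, le_rfl, fun z hz => ?_⟩
      obtain ⟨h1, h2⟩ := hz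
      nlinarith
  have h1 : ∫ z in Set.Icc a (a + 1), exp (-(π * (y ^ 2 + 1))) ≤
      ∫ z, Set.indicator (Set.Icc (y - 1) (y + 1)) (fun z : ℝ => exp (-(π * z ^ 2))) z := by
    rw [← integral_indicator measurableSet_Icc]
    refine integral_mono ((integrableOn_const (by simp) (by simp)).integrable_indicator measurableSet_Icc)
      (kin_ker_integrable y) fun z => ?_
    by_cases hz : z ∈ Set.Icc a (a + 1)
    · have hz' : z ∈ Set.Icc (y - 1) (y + 1) := ⟨ha1.trans hz.1, hz.2.trans ha2⟩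
      rw [Set.indicator_of_mem hz, Set.indicator_of_mem hz']
      apply exp_le_exp.2
      have := ha3 z hz
      have hπ := pi_pos
      nlinarith
    · rw [Set.indicator_of_notMem hz]
      exact Set.indicator_nonneg (fun _ _ => (exp_pos _).le) z
  have h2 : ∫ z in Set.Icc a (a + 1), exp (-(π * (y ^ 2 + 1))) = exp (-(π * (y ^ 2 + 1))) := by
    rw [setIntegral_const]
    simp [Measure.real]
  rw [h2] at h1
  calc exp (-(9 * π * y ^ 2)) ≤ exp (π + -(π * (y ^ 2 + 1))) := by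
        apply exp_le_exp.2
        have hπ := pi_pos
        nlinarith [sq_nonneg y]
    _ = exp π * exp (-(π * (y ^ 2 + 1))) := exp_add _ _
    _ ≤ _ := mul_le_mul_of_nonneg_left h1 (exp_pos _).le

theorem kin_ker_int_gauss : ∫ z : ℝ, exp (-(π * z ^ 2)) = 1 := by
  have := integral_gaussian π
  rw [div_self pi_pos.ne', sqrt_one] at this
  rw [← this]
  congr 1
  funext z
  congr 1
  ring

theorem kin_ker_integrable_gauss : Integrable fun z : ℝ => exp (-(π * z ^ 2)) := by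
  have := integrable_exp_neg_mul_sq pi_pos
  refine this.congr (ae_of_all _ fun z => ?_)
  show exp (-π * z ^ 2) = exp (-(π * z ^ 2))
  congr 1
  ring

theorem kin_ker_sum {ι : Type} (S : Finset ι) (c y : ι → ℝ) (hc : ∀ i ∈ S, 0 ≤ c i) (M : ℝ)
    (hM : ∀ z : ℝ, ∑ i ∈ S with |y i - z| ≤ 1, c i ≤ M) :
    ∑ i ∈ S, c i * exp (-(9 * π * y i ^ 2)) ≤ exp π * M := by
  have h1 : ∑ i ∈ S, c i * exp (-(9 * π * y i ^ 2)) ≤
      ∑ i ∈ S, c i * (exp π * ∫ z, Set.indicator (Set.Icc (y i - 1) (y i + 1)) (fun z : ℝ => exp (-(π * z ^ 2))) z) :=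
    Finset.sum_le_sum fun i hi => mul_le_mul_of_nonneg_left (kin_ker_gauss (y i)) (hc i hi)
  have h2 : ∑ i ∈ S, c i * (exp π * ∫ z, Set.indicator (Set.Icc (y i - 1) (y i + 1)) (fun z : ℝ => exp (-(π * z ^ 2))) z) =
      exp π * ∫ z, ∑ i ∈ S, c i * Set.indicator (Set.Icc (y i - 1) (y i + 1)) (fun z : ℝ => exp (-(π * z ^ 2))) z := by
    rw [integral_finsetSum _ fun i _ => (kin_ker_integrable (y i)).const_mul (c i), Finset.mul_sum]
    refine Finset.sum_congr rfl fun i _ => ?_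
    rw [integral_const_mul]
    ring
  have h3 : ∫ z, ∑ i ∈ S, c i * Set.indicator (Set.Icc (y i - 1) (y i + 1)) (fun z : ℝ => exp (-(π * z ^ 2))) z ≤
      ∫ z : ℝ, M * exp (-(π * z ^ 2)) := by
    refine integral_mono (integrable_finsetSum _ fun i _ => (kin_ker_integrable (y i)).const_mul (c i))
      (kin_ker_integrable_gauss.const_mul M) fun z => ?_
    have e : ∑ i ∈ S, c i * Set.indicator (Set.Icc (y i - 1) (y i + 1)) (fun z : ℝ => exp (-(π * z ^ 2))) z =
        (∑ i ∈ S with |y i - z| ≤ 1, c i) * exp (-(π * z ^ 2)) := by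
      rw [Finset.sum_filter, Finset.sum_mul]
      refine Finset.sum_congr rfl fun i _ => ?_
      by_cases h : |y i - z| ≤ 1
      · have hz : z ∈ Set.Icc (y i - 1) (y i + 1) := by
          rw [abs_le] at h
          exact ⟨by linarith [h.2], by linarith [h.1]⟩
        rw [Set.indicator_of_mem hz, if_pos h]
      · have hz : z ∉ Set.Icc (y i - 1) (y i + 1) := by
          intro hz
          apply h
          rw [abs_le]
          exact ⟨by linarith [hz.2], by linarith [hz.1]⟩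
        rw [Set.indicator_of_notMem hz, if_neg h]
        ring
    show ∑ i ∈ S, c i * Set.indicator (Set.Icc (y i - 1) (y i + 1)) (fun z : ℝ => exp (-(π * z ^ 2))) z ≤ _
    rw [e]
    exact mul_le_mul_of_nonneg_right (hM z) (exp_pos _).le
  rw [integral_const_mul, kin_ker_int_gauss, mul_one] at h3
  calc _ ≤ _ := h1
    _ = _ := h2
    _ ≤ _ := mul_le_mul_of_nonneg_left h3 (exp_pos _).le

/-- on the dyadic fibre `0 ≤ X - nR < R` -/
theorem kin_ker_fibre {ι : Type} [Fintype ι] (F : KinFam ι) (j : ℕ) (n : ℤ) {i : ι} (hi : i ∈ kinS F j n) :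
    0 ≤ F.X i - n * (1 / 2 : ℝ) ^ j ∧ F.X i - n * (1 / 2 : ℝ) ^ j ≤ (1 / 2 : ℝ) ^ j := by
  have h : kinIdx j (F.X i) = n := (Finset.mem_filter.1 hi).2
  unfold kinIdx at h
  have h1 := Int.floor_le (F.X i * 2 ^ j)
  have h2 := Int.lt_floor_add_one (F.X i * 2 ^ j)
  rw [h] at h1 h2
  have hR : (0 : ℝ) < (1 / 2 : ℝ) ^ j := by positivity
  have e : (2 : ℝ) ^ j * (1 / 2 : ℝ) ^ j = 1 := by
    rw [← mul_pow]; norm_num
  constructor
  · have := mul_le_mul_of_nonneg_right h1 hR.le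
    rw [mul_assoc, e, mul_one] at this
    linarith
  · have := mul_le_mul_of_nonneg_right h2.le hR.le
    rw [mul_assoc, e, mul_one] at this
    linarith

theorem kin_ker (hC : KinCovC) : KinKerC := by
  intro ι _ F κ j n hκ hreg i hi t
  set R : ℝ := (1 / 2 : ℝ) ^ j with hRdef
  have hR : 0 < R := by positivity
  set x : ℝ := n * R with hx
  set S := kinS F j n with hS
  have hα : 0 < R ^ 2 / 9 := by positivity
  have hβ : 0 < R ^ 4 / 9 := by positivity
  have hsα : sqrt (R ^ 2 / 9) = R / 3 := by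
    rw [show R ^ 2 / 9 = (R / 3) ^ 2 by ring]
    exact sqrt_sq (by positivity)
  have hsβ : sqrt (R ^ 4 / 9) = R ^ 2 / 3 := by
    rw [show R ^ 4 / 9 = (R ^ 2 / 3) ^ 2 by ring]
    exact sqrt_sq (by positivity)
  -- normalised variables
  set y : ι → ℝ := fun i' => (F.B i - F.B i' + t * (F.X i - F.X i')) / R with hy
  set y' : ι → ℝ := fun i' => (F.Y i - F.Y i' - 2 * x * (F.B i - F.B i') +
    t * ((F.X i - x) ^ 2 - (F.X i' - x) ^ 2)) / R ^ 2 with hy'
  have hker : ∀ i', faK (faG (R ^ 2 / 9) (R ^ 4 / 9) (2 * x))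
      (F.B i - F.B i' + t * (F.X i - F.X i')) (F.Y i - F.Y i' + t * (F.X i ^ 2 - F.X i' ^ 2)) =
      9 / R ^ 3 * (exp (-(9 * π * y' i' ^ 2)) * exp (-(9 * π * y i' ^ 2))) := by
    intro i'
    rw [Claimed.Agent.RW.fa_gauss_K hα hβ, hsα, hsβ]
    have e1 : -π * (F.B i - F.B i' + t * (F.X i - F.X i')) ^ 2 / (R ^ 2 / 9) = -(9 * π * y i' ^ 2) := by
      simp only [hy]
      field_simp
    have e2 : -π * (F.Y i - F.Y i' + t * (F.X i ^ 2 - F.X i' ^ 2) -
        2 * x * (F.B i - F.B i' + t * (F.X i - F.X i'))) ^ 2 / (R ^ 4 / 9) = -(9 * π * y' i' ^ 2) := by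
      simp only [hy']
      field_simp
      ring
    rw [e1, e2]
    field_simp
    norm_num
  have hfi := kin_ker_fibre F j n hi
  rw [← hRdef, ← hx] at hfi
  -- the innermost bound: [COV]
  have hcov : ∀ z z' : ℝ, ∑ i' ∈ (S.filter fun i' => |y i' - z| ≤ 1) with |y' i' - z'| ≤ 1, F.m i' ≤
      κ * R ^ 3 * (2 + |t|) ^ 2 := by
    intro z z'
    have h0 := hC ι F κ R hκ hR hreg x (F.B i - z * R) (F.Y i - 2 * x * F.B i - z' * R ^ 2) (1 + |t|) (by positivity)
    rw [show (1 + |t| + 1 : ℝ) = 2 + |t| by ring] at h0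
    refine le_trans (Finset.sum_le_sum_of_subset_of_nonneg ?_ fun i' _ _ => F.m_nonneg i') h0
    intro i' hi'
    obtain ⟨hi1, hi3⟩ := Finset.mem_filter.1 hi'
    obtain ⟨hi0, hi2⟩ := Finset.mem_filter.1 hi1
    have hf := kin_ker_fibre F j n hi0
    rw [← hRdef, ← hx] at hf
    refine Finset.mem_filter.2 ⟨Finset.mem_univ _, ?_, ?_, ?_⟩
    · rw [abs_le]; constructor <;> linarith [hf.1, hf.2]
    · -- |B i' - (B i - z R)| ≤ (1+|t|) R
      have h1 : |(F.B i - F.B i' + t * (F.X i - F.X i')) - z * R| ≤ R := by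
        have : (F.B i - F.B i' + t * (F.X i - F.X i')) - z * R = (y i' - z) * R := by
          simp only [hy]; field_simp
        rw [this, abs_mul, abs_of_pos hR]
        nlinarith
      have h2 : |t * (F.X i - F.X i')| ≤ |t| * R := by
        rw [abs_mul]
        refine mul_le_mul_of_nonneg_left ?_ (abs_nonneg t)
        rw [abs_le]; constructor <;> linarith [hf.1, hf.2, hfi.1, hfi.2]
      rw [abs_le] at h1 h2 ⊢
      constructor <;> nlinarith [h1.1, h1.2, h2.1, h2.2]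
    · have h1 : |(F.Y i - F.Y i' - 2 * x * (F.B i - F.B i') + t * ((F.X i - x) ^ 2 - (F.X i' - x) ^ 2)) - z' * R ^ 2| ≤ R ^ 2 := by
        have : (F.Y i - F.Y i' - 2 * x * (F.B i - F.B i') + t * ((F.X i - x) ^ 2 - (F.X i' - x) ^ 2)) - z' * R ^ 2 =
            (y' i' - z') * R ^ 2 := by
          simp only [hy']; field_simp
        rw [this, abs_mul, abs_of_pos (by positivity : 0 < R ^ 2)]
        nlinarith [sq_nonneg R]
      have h2 : |t * ((F.X i - x) ^ 2 - (F.X i' - x) ^ 2)| ≤ |t| * R ^ 2 := by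
        rw [abs_mul]
        refine mul_le_mul_of_nonneg_left ?_ (abs_nonneg t)
        rw [abs_le]; constructor <;> nlinarith [hf.1, hf.2, hfi.1, hfi.2]
      rw [abs_le] at h1 h2 ⊢
      constructor <;> nlinarith [h1.1, h1.2, h2.1, h2.2]
  -- second layer
  have hmid : ∀ z : ℝ, ∑ i' ∈ S with |y i' - z| ≤ 1, F.m i' * exp (-(9 * π * y' i' ^ 2)) ≤
      exp π * (κ * R ^ 3 * (2 + |t|) ^ 2) := fun z =>
    kin_ker_sum _ F.m y' (fun i' _ => F.m_nonneg i') _ (hcov z)
  have htop := kin_ker_sum S (fun i' => F.m i' * exp (-(9 * π * y' i' ^ 2))) y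
    (fun i' _ => mul_nonneg (F.m_nonneg i') (exp_pos _).le) _ hmid
  calc ∑ i' ∈ S, F.m i' * faK (faG (R ^ 2 / 9) (R ^ 4 / 9) (2 * x))
        (F.B i - F.B i' + t * (F.X i - F.X i')) (F.Y i - F.Y i' + t * (F.X i ^ 2 - F.X i' ^ 2))
      = 9 / R ^ 3 * ∑ i' ∈ S, F.m i' * exp (-(9 * π * y' i' ^ 2)) * exp (-(9 * π * y i' ^ 2)) := by
        rw [Finset.mul_sum]
        refine Finset.sum_congr rfl fun i' _ => ?_
        rw [hker i']
        ring
    _ ≤ 9 / R ^ 3 * (exp π * (exp π * (κ * R ^ 3 * (2 + |t|) ^ 2))) :=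
        mul_le_mul_of_nonneg_left htop (by positivity)
    _ = 9 * exp (2 * π) * κ * (2 + |t|) ^ 2 := by
        rw [show 2 * π = π + π by ring, exp_add]
        field_simp

end Claimed.Agent.R256
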