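import Claimed.Agent.R256.Kin.Sup

/-!
# Row 256, unit KIN, leaf [LOW]: `kin_low : KinLowC`      (helper259; architect helper132).   Prefix `kin_low`.
Pairwise: a collision at the time `nδ` forces the Gaussian integrand to be `≥ δ⁻² e^(-18π)` on `[nδ, (n+1)δ]`; the intervals are adjacent in `[0, 2]`.
-/

set_option autoImplicit false

namespace Claimed.Agent.R256

open Finset MeasureTheory Real
open Claimed.Agent.RW (faG faK)

/-- the kernel at scale `δ` is large on the box of side `3δ` -/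
theorem kin_low_K_ge {δ : ℝ} (hδ : 0 < δ) (u v : ℝ) (hu : |u| ≤ 3 * δ) (hv : |v| ≤ 3 * δ) :
    (δ ^ 2)⁻¹ * exp (-(18 * π)) ≤ faK (faG (δ ^ 2) (δ ^ 2) 0) u v := by
  rw [RW.fa_gauss_K (by positivity) (by positivity), sqrt_sq hδ.le]
  have hsq : ∀ y : ℝ, |y| ≤ 3 * δ → exp (-(9 * π)) ≤ exp (-π * y ^ 2 / δ ^ 2) := by
    intro y hy
    apply exp_le_exp.2
    have h1 : y ^ 2 ≤ (3 * δ) ^ 2 := by
      rw [← sq_abs y]
      exact pow_le_pow_left₀ (abs_nonneg y) hy 2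
    have h2 : y ^ 2 / δ ^ 2 ≤ 9 := by
      rw [div_le_iff₀ (by positivity)]
      nlinarith
    have e : -π * y ^ 2 / δ ^ 2 = -(π * (y ^ 2 / δ ^ 2)) := by ring
    rw [e]
    have := mul_le_mul_of_nonneg_left h2 pi_pos.le
    linarith
  have h3 : exp (-(18 * π)) = exp (-(9 * π)) * exp (-(9 * π)) := by
    rw [← exp_add]
    congr 1
    ring
  have h4 : v - 0 * u = v := by ring
  rw [h3, h4]
  have h5 := mul_le_mul (hsq u hu) (hsq v hv) (exp_pos _).le (exp_pos _).le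
  calc (δ ^ 2)⁻¹ * (exp (-(9 * π)) * exp (-(9 * π))) ≤ (δ ^ 2)⁻¹ * (exp (-π * u ^ 2 / δ ^ 2) * exp (-π * v ^ 2 / δ ^ 2)) :=
        mul_le_mul_of_nonneg_left h5 (by positivity)
    _ = _ := by
        rw [sq, mul_inv]

/-- one pair of rays -/
theorem kin_low_pair (W : KinWin) {δ : ℝ} (hδ : 0 < δ) (N : ℕ) (hN : (N : ℝ) * δ ≤ 2) (dB dX dY dS : ℝ) (hX : |dX| ≤ 2) (hS : |dS| ≤ 2) :
    ∑ n ∈ range N, (if |dB + (n * δ) * dX| ≤ δ ∧ |dY + (n * δ) * dS| ≤ δ then (1 : ℝ) else 0)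
      ≤ exp (18 * π) * δ * ∫ t, W.θ t * faK (faG (δ ^ 2) (δ ^ 2) 0) (dB + t * dX) (dY + t * dS) := by
  have hα : 0 < δ ^ 2 := by positivity
  obtain ⟨g, hg⟩ : ∃ g : ℝ → ℝ, g = fun t => W.θ t * faK (faG (δ ^ 2) (δ ^ 2) 0) (dB + t * dX) (dY + t * dS) := ⟨_, rfl⟩
  have hgint : Integrable g := by rw [hg]; exact kin_sup_K_int W hα hα 0 dB dX dY dS
  have hg0 : ∀ t, 0 ≤ g t := fun t => by rw [hg]; exact mul_nonneg (W.θ_nonneg t) (kin_sup_K_nonneg hα hα 0 _ _)
  have hII : ∀ a b : ℝ, IntervalIntegrable g volume a b := fun a b => hgint.intervalIntegrable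
  -- one interval
  have hone : ∀ n ∈ range N, (if |dB + (n * δ) * dX| ≤ δ ∧ |dY + (n * δ) * dS| ≤ δ then (1 : ℝ) else 0) * (δ⁻¹ * exp (-(18 * π)))
      ≤ ∫ t in ((n : ℕ) : ℝ) * δ..((n + 1 : ℕ) : ℝ) * δ, g t := by
    intro n hn
    have hnN : (n : ℝ) + 1 ≤ N := by exact_mod_cast Finset.mem_range.1 hn
    have hle : (n : ℝ) * δ ≤ ((n + 1 : ℕ) : ℝ) * δ := by
      push_cast
      nlinarith
    split_ifs with hc
    · have hconst : ∫ _t in ((n : ℕ) : ℝ) * δ..((n + 1 : ℕ) : ℝ) * δ, (δ ^ 2)⁻¹ * exp (-(18 * π)) = 1 * (δ⁻¹ * exp (-(18 * π))) := by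
        rw [intervalIntegral.integral_const, smul_eq_mul]
        push_cast
        field_simp
        ring
      rw [← hconst]
      refine intervalIntegral.integral_mono_on hle intervalIntegrable_const (hII _ _) fun t ht => ?_
      have ht0 : 0 ≤ t - n * δ := by linarith [ht.1]
      have ht1 : t - n * δ ≤ δ := by
        have := ht.2
        push_cast at this
        linarith
      have habs : |t - n * δ| ≤ δ := abs_le.2 ⟨by linarith, ht1⟩
      have hu : |dB + t * dX| ≤ 3 * δ := by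
        have e : dB + t * dX = (dB + (n * δ) * dX) + (t - n * δ) * dX := by ring
        rw [e]
        refine (abs_add_le _ _).trans ?_
        rw [abs_mul]
        have := mul_le_mul habs hX (abs_nonneg _) hδ.le
        linarith [hc.1]
      have hv : |dY + t * dS| ≤ 3 * δ := by
        have e : dY + t * dS = (dY + (n * δ) * dS) + (t - n * δ) * dS := by ring
        rw [e]
        refine (abs_add_le _ _).trans ?_
        rw [abs_mul]
        have := mul_le_mul habs hS (abs_nonneg _) hδ.le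
        linarith [hc.2]
      have hθ : 1 ≤ W.θ t := by
        apply W.θ_low
        have hn0 : (0 : ℝ) ≤ n * δ := by positivity
        have h2 : t ≤ 2 := by
          have : ((n : ℝ) + 1) * δ ≤ N * δ := mul_le_mul_of_nonneg_right hnN hδ.le
          linarith
        exact abs_le.2 ⟨by linarith, h2⟩
      rw [hg]
      have hK := kin_low_K_ge hδ _ _ hu hv
      have hpos : 0 ≤ (δ ^ 2)⁻¹ * exp (-(18 * π)) := by positivity
      calc (δ ^ 2)⁻¹ * exp (-(18 * π)) = 1 * ((δ ^ 2)⁻¹ * exp (-(18 * π))) := (one_mul _).symm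
        _ ≤ W.θ t * faK (faG (δ ^ 2) (δ ^ 2) 0) (dB + t * dX) (dY + t * dS) := mul_le_mul hθ hK hpos (W.θ_nonneg t)
    · rw [zero_mul]
      exact intervalIntegral.integral_nonneg hle fun t _ => hg0 t
  -- adjacent intervals
  have hadj : ∑ n ∈ range N, ∫ t in ((n : ℕ) : ℝ) * δ..((n + 1 : ℕ) : ℝ) * δ, g t = ∫ t in ((0 : ℕ) : ℝ) * δ..((N : ℕ) : ℝ) * δ, g t :=
    intervalIntegral.sum_integral_adjacent_intervals (a := fun n : ℕ => (n : ℝ) * δ) fun n _ => hII _ _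
  have htot : ∫ t in ((0 : ℕ) : ℝ) * δ..((N : ℕ) : ℝ) * δ, g t ≤ ∫ t, g t := by
    rw [intervalIntegral.integral_of_le (by simp only [Nat.cast_zero, zero_mul]; positivity)]
    exact setIntegral_le_integral hgint (Filter.Eventually.of_forall hg0)
  have hsum := (Finset.sum_le_sum hone).trans ((le_of_eq hadj).trans htot)
  rw [← Finset.sum_mul] at hsum
  rw [← hg]
  have hE : exp (18 * π) * exp (-(18 * π)) = 1 := by rw [← exp_add]; simp
  have h6 := mul_le_mul_of_nonneg_left hsum (by positivity : 0 ≤ exp (18 * π) * δ)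
  calc ∑ n ∈ range N, (if |dB + (n * δ) * dX| ≤ δ ∧ |dY + (n * δ) * dS| ≤ δ then (1 : ℝ) else 0)
      = exp (18 * π) * δ * ((∑ n ∈ range N, (if |dB + (n * δ) * dX| ≤ δ ∧ |dY + (n * δ) * dS| ≤ δ then (1 : ℝ) else 0)) * (δ⁻¹ * exp (-(18 * π)))) := by
        have : exp (18 * π) * δ * (δ⁻¹ * exp (-(18 * π))) = 1 := by
          calc exp (18 * π) * δ * (δ⁻¹ * exp (-(18 * π))) = (exp (18 * π) * exp (-(18 * π))) * (δ * δ⁻¹) := by ring
            _ = 1 := by rw [hE, mul_inv_cancel₀ hδ.ne', one_mul]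
        calc _ = (∑ n ∈ range N, (if |dB + (n * δ) * dX| ≤ δ ∧ |dY + (n * δ) * dS| ≤ δ then (1 : ℝ) else 0)) * 1 := (mul_one _).symm
          _ = _ := by rw [← this]; ring
    _ ≤ _ := h6

theorem kin_low : KinLowC := by
  intro W ι _ F k
  obtain ⟨δ, hδe⟩ : ∃ δ : ℝ, δ = (1 / 2 : ℝ) ^ k := ⟨_, rfl⟩
  have hδ : 0 < δ := by rw [hδe]; positivity
  have hδ1 : δ ≤ 1 := by rw [hδe]; exact pow_le_one₀ (by norm_num) (by norm_num)
  have hN : ((2 ^ k + 1 : ℕ) : ℝ) * δ ≤ 2 := by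
    push_cast
    have : (2 : ℝ) ^ k * δ = 1 := by rw [hδe, ← mul_pow]; norm_num
    nlinarith
  rw [← hδe]
  unfold kinE
  rw [Finset.sum_comm, Finset.mul_sum]
  refine Finset.sum_le_sum fun i _ => ?_
  rw [Finset.sum_comm, Finset.mul_sum]
  refine Finset.sum_le_sum fun i' _ => ?_
  have hX : |F.X i - F.X i'| ≤ 2 := by
    have h1 := abs_le.1 (F.X_le i)
    have h2 := abs_le.1 (F.X_le i')
    exact abs_le.2 ⟨by linarith [h1.1, h2.2], by linarith [h1.2, h2.1]⟩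
  have hS : |F.X i ^ 2 - F.X i' ^ 2| ≤ 2 := by
    have h1 : F.X i ^ 2 ≤ 1 := by rw [← sq_abs]; exact pow_le_one₀ (abs_nonneg _) (F.X_le i)
    have h2 : F.X i' ^ 2 ≤ 1 := by rw [← sq_abs]; exact pow_le_one₀ (abs_nonneg _) (F.X_le i')
    exact abs_le.2 ⟨by nlinarith [sq_nonneg (F.X i), sq_nonneg (F.X i')], by nlinarith [sq_nonneg (F.X i), sq_nonneg (F.X i')]⟩
  have hp := kin_low_pair W hδ (2 ^ k + 1) hN (F.B i - F.B i') (F.X i - F.X i') (F.Y i - F.Y i') (F.X i ^ 2 - F.X i' ^ 2) hX hS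
  have hmm : 0 ≤ F.m i * F.m i' := mul_nonneg (F.m_nonneg i) (F.m_nonneg i')
  have h1 : ∑ n ∈ range (2 ^ k + 1), (if kinCol F δ (n * δ) i i' then F.m i * F.m i' else 0)
      = F.m i * F.m i' * ∑ n ∈ range (2 ^ k + 1),
        (if |F.B i - F.B i' + (n * δ) * (F.X i - F.X i')| ≤ δ ∧ |F.Y i - F.Y i' + (n * δ) * (F.X i ^ 2 - F.X i' ^ 2)| ≤ δ then (1 : ℝ) else 0) := by
    rw [Finset.mul_sum]
    refine Finset.sum_congr rfl fun n _ => ?_
    by_cases hc : kinCol F δ (n * δ) i i'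
    · rw [if_pos hc, if_pos (show _ ∧ _ from hc), mul_one]
    · rw [if_neg hc, if_neg (show ¬ (_ ∧ _) from hc), mul_zero]
  rw [h1]
  have := mul_le_mul_of_nonneg_left hp hmm
  linarith

end Claimed.Agent.R256
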