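import Claimed.Agent.R256.Kin.Plans

/-!
# Row 256, unit KIN, leaf [OVL]: at most 9 stopping classes meet a window `|s + q(x)| ≤ 1/32`.     helper132.  Prefix `kin_ovl`.
-/

set_option autoImplicit false

namespace Claimed.Agent.R256

open Finset Real

theorem kin_ovl_lev_mem (ξ ζ : ℝ) (k : ℕ) (x : ℝ) :
    kinLev ξ ζ k x = k ∨ kinCond ξ ζ (kinLev ξ ζ k x) (kinIdx (kinLev ξ ζ k x) x) :=
  Nat.sInf_mem (s := {j : ℕ | j = k ∨ kinCond ξ ζ j (kinIdx j x)}) ⟨k, Or.inl rfl⟩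

theorem kin_ovl_lev_min {ξ ζ : ℝ} {k : ℕ} {x : ℝ} {j : ℕ} (hj : j < kinLev ξ ζ k x) : ¬ kinCond ξ ζ j (kinIdx j x) := by
  intro h
  exact Nat.notMem_of_lt_sInf (s := {j : ℕ | j = k ∨ kinCond ξ ζ j (kinIdx j x)}) hj (Or.inr h)

theorem kin_ovl_pow (j : ℕ) : (1 / 2 : ℝ) ^ j * 2 ^ j = 1 := by
  rw [← mul_pow]; norm_num

/-- `x` lies in its dyadic interval -/
theorem kin_ovl_idx_bd (j : ℕ) (x : ℝ) :
    (kinIdx j x : ℝ) * (1 / 2 : ℝ) ^ j ≤ x ∧ x < ((kinIdx j x : ℝ) + 1) * (1 / 2 : ℝ) ^ j := by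
  have hR : (0 : ℝ) < (1 / 2 : ℝ) ^ j := by positivity
  have h1 : ((kinIdx j x : ℤ) : ℝ) ≤ x * 2 ^ j := Int.floor_le _
  have h2 : x * 2 ^ j < (kinIdx j x : ℝ) + 1 := Int.lt_floor_add_one _
  have h3 := kin_ovl_pow j
  constructor
  · calc (kinIdx j x : ℝ) * (1 / 2 : ℝ) ^ j ≤ x * 2 ^ j * (1 / 2 : ℝ) ^ j := mul_le_mul_of_nonneg_right h1 hR.le
      _ = x * ((1 / 2 : ℝ) ^ j * 2 ^ j) := by ring
      _ = x := by rw [h3, mul_one]
  · calc x = x * ((1 / 2 : ℝ) ^ j * 2 ^ j) := by rw [h3, mul_one]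
      _ = x * 2 ^ j * (1 / 2 : ℝ) ^ j := by ring
      _ < ((kinIdx j x : ℝ) + 1) * (1 / 2 : ℝ) ^ j := mul_lt_mul_of_pos_right h2 hR

theorem kin_ovl_idx_eq {j : ℕ} {x : ℝ} {n : ℤ} (h1 : (n : ℝ) * (1 / 2 : ℝ) ^ j ≤ x) (h2 : x < ((n : ℝ) + 1) * (1 / 2 : ℝ) ^ j) :
    kinIdx j x = n := by
  have hP : (0 : ℝ) < 2 ^ j := by positivity
  have h3 := kin_ovl_pow j
  unfold kinIdx
  rw [Int.floor_eq_iff]
  constructor
  · calc (n : ℝ) = n * ((1 / 2 : ℝ) ^ j * 2 ^ j) := by rw [h3, mul_one]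
      _ = n * (1 / 2 : ℝ) ^ j * 2 ^ j := by ring
      _ ≤ x * 2 ^ j := mul_le_mul_of_nonneg_right h1 hP.le
  · calc x * 2 ^ j < ((n : ℝ) + 1) * (1 / 2 : ℝ) ^ j * 2 ^ j := mul_lt_mul_of_pos_right h2 hP
      _ = ((n : ℝ) + 1) * ((1 / 2 : ℝ) ^ j * 2 ^ j) := by ring
      _ = (n : ℝ) + 1 := by rw [h3, mul_one]

/-- the parent index -/
theorem kin_ovl_parent (j : ℕ) (x : ℝ) :
    kinIdx (j + 1) x = 2 * kinIdx j x ∨ kinIdx (j + 1) x = 2 * kinIdx j x + 1 := by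
  have h1 : ((kinIdx j x : ℤ) : ℝ) ≤ x * 2 ^ j := Int.floor_le _
  have h2 : x * 2 ^ j < (kinIdx j x : ℝ) + 1 := Int.lt_floor_add_one _
  have h3 : ((kinIdx (j + 1) x : ℤ) : ℝ) ≤ x * 2 ^ (j + 1) := Int.floor_le _
  have h4 : x * 2 ^ (j + 1) < (kinIdx (j + 1) x : ℝ) + 1 := Int.lt_floor_add_one _
  have e : x * 2 ^ (j + 1) = 2 * (x * 2 ^ j) := by ring
  rw [e] at h3 h4
  have a1 : ((2 * kinIdx j x : ℤ) : ℝ) < ((kinIdx (j + 1) x + 1 : ℤ) : ℝ) := by push_cast; linarith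
  have a2 : ((kinIdx (j + 1) x : ℤ) : ℝ) < ((2 * kinIdx j x + 2 : ℤ) : ℝ) := by push_cast; linarith
  have b1 : 2 * kinIdx j x < kinIdx (j + 1) x + 1 := by exact_mod_cast a1
  have b2 : kinIdx (j + 1) x < 2 * kinIdx j x + 2 := by exact_mod_cast a2
  omega

/-- lower bound for the `q`-length of a stopping interval of level `≥ 1` on which `q' ≥ 0` -/
theorem kin_ovl_len {ξ ζ : ℝ} {k : ℕ} {x : ℝ} {j : ℕ} (hj : kinLev ξ ζ k x = j + 1)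
    (hl : 0 ≤ ξ + 2 * ζ * ((kinIdx (j + 1) x : ℝ) * (1 / 2 : ℝ) ^ (j + 1)))
    (hr : 0 ≤ ξ + 2 * ζ * (((kinIdx (j + 1) x : ℝ) + 1) * (1 / 2 : ℝ) ^ (j + 1))) :
    1 < 4 * (1 / 2 : ℝ) ^ (j + 1) * ((ξ + 2 * ζ * ((kinIdx (j + 1) x : ℝ) * (1 / 2 : ℝ) ^ (j + 1))) +
      (ξ + 2 * ζ * (((kinIdx (j + 1) x : ℝ) + 1) * (1 / 2 : ℝ) ^ (j + 1)))) := by
  have hmin : ¬ kinCond ξ ζ j (kinIdx j x) := kin_ovl_lev_min (k := k) (by omega)
  set R : ℝ := (1 / 2 : ℝ) ^ (j + 1) with hR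
  have hR0 : 0 < R := by positivity
  have hR2 : (1 / 2 : ℝ) ^ j = 2 * R := by rw [hR, pow_succ]; ring
  set n : ℤ := kinIdx (j + 1) x with hn
  set N : ℤ := kinIdx j x with hN
  set pl := ξ + 2 * ζ * ((n : ℝ) * R) with hpl
  set pr := ξ + 2 * ζ * (((n : ℝ) + 1) * R) with hpr
  unfold kinCond at hmin
  rw [hR2] at hmin
  by_contra hcon
  rw [not_lt] at hcon
  apply hmin
  rcases kin_ovl_parent j x with h | h
  · -- even: parent = [l, r + R]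
    have hc : (n : ℝ) = 2 * (N : ℝ) := by rw [← hn] at h; exact_mod_cast h
    have e1 : ξ + 2 * ζ * ((N : ℝ) * (2 * R)) = pl := by rw [hpl, hc]; ring
    have e2 : ξ + 2 * ζ * (((N : ℝ) + 1) * (2 * R)) = 2 * pr - pl := by rw [hpl, hpr, hc]; ring
    rw [e1, e2]
    constructor
    · rw [abs_of_nonneg hl]; nlinarith
    · have : |2 * pr - pl| ≤ 2 * pr + pl := by rw [abs_le]; constructor <;> linarith
      nlinarith
  · have hc : (n : ℝ) = 2 * (N : ℝ) + 1 := by rw [← hn] at h; exact_mod_cast h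
    have e1 : ξ + 2 * ζ * ((N : ℝ) * (2 * R)) = 2 * pl - pr := by rw [hpl, hpr, hc]; ring
    have e2 : ξ + 2 * ζ * (((N : ℝ) + 1) * (2 * R)) = pr := by rw [hpr, hc]; ring
    rw [e1, e2]
    constructor
    · have : |2 * pl - pr| ≤ 2 * pl + pr := by rw [abs_le]; constructor <;> linarith
      nlinarith
    · rw [abs_of_nonneg hr]; nlinarith

/-- no three ordered points with `q' ≥ 0` at the ends, in a window, with the middle class of level `≥ 1` different from the two others -/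
theorem kin_ovl_three (hL : KinSelC) {ξ ζ : ℝ} {k : ℕ} {s x1 x2 x3 : ℝ} (h12 : x1 < x2) (h23 : x2 < x3) (hx2 : |x2| ≤ 1)
    (hp1 : 0 ≤ ξ + 2 * ζ * x1) (hp3 : 0 ≤ ξ + 2 * ζ * x3)
    (hw1 : |s + (ξ * x1 + ζ * x1 ^ 2)| ≤ 1 / 32) (hw3 : |s + (ξ * x3 + ζ * x3 ^ 2)| ≤ 1 / 32)
    (hlev : 1 ≤ kinLev ξ ζ k x2) (hc1 : kinCls ξ ζ k x1 ≠ kinCls ξ ζ k x2) (hc3 : kinCls ξ ζ k x3 ≠ kinCls ξ ζ k x2) : False := by
  obtain ⟨j, hj⟩ : ∃ j, kinLev ξ ζ k x2 = j + 1 := ⟨kinLev ξ ζ k x2 - 1, by omega⟩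
  obtain ⟨-, l2, -⟩ := hL ξ ζ k x2 hx2
  rw [hj] at l2
  obtain ⟨b1, b2⟩ := kin_ovl_idx_bd (j + 1) x2
  set R : ℝ := (1 / 2 : ℝ) ^ (j + 1) with hR
  have hR0 : 0 < R := by positivity
  set n : ℤ := kinIdx (j + 1) x2 with hn
  have hl : x1 < (n : ℝ) * R := by
    by_contra hcon
    rw [not_lt] at hcon
    exact hc1 (l2 x1 (kin_ovl_idx_eq hcon (by linarith)))
  have hr : ((n : ℝ) + 1) * R ≤ x3 := by
    by_contra hcon
    rw [not_le] at hcon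
    exact hc3 (l2 x3 (kin_ovl_idx_eq (by linarith) hcon))
  set l := (n : ℝ) * R with hldef
  set r := ((n : ℝ) + 1) * R with hrdef
  have hlr : r - l = R := by rw [hldef, hrdef]; ring
  have hpl : 0 ≤ ξ + 2 * ζ * l := by
    rcases le_total 0 ζ with hz | hz
    · nlinarith
    · nlinarith
  have hpr : 0 ≤ ξ + 2 * ζ * r := by
    rcases le_total 0 ζ with hz | hz
    · nlinarith
    · nlinarith
  have hlen := kin_ovl_len (k := k) hj hpl hpr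
  have e1 : (ξ * x3 + ζ * x3 ^ 2) - (ξ * r + ζ * r ^ 2) = (x3 - r) * ((ξ + 2 * ζ * r) + (ξ + 2 * ζ * x3)) / 2 := by ring
  have e2 : (ξ * r + ζ * r ^ 2) - (ξ * l + ζ * l ^ 2) = (r - l) * ((ξ + 2 * ζ * l) + (ξ + 2 * ζ * r)) / 2 := by ring
  have e3 : (ξ * l + ζ * l ^ 2) - (ξ * x1 + ζ * x1 ^ 2) = (l - x1) * ((ξ + 2 * ζ * x1) + (ξ + 2 * ζ * l)) / 2 := by ring
  have g1 : 0 ≤ (x3 - r) * ((ξ + 2 * ζ * r) + (ξ + 2 * ζ * x3)) / 2 := by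
    have : 0 ≤ x3 - r := by linarith
    positivity
  have g3 : 0 ≤ (l - x1) * ((ξ + 2 * ζ * x1) + (ξ + 2 * ζ * l)) / 2 := by
    have : 0 ≤ l - x1 := by linarith
    positivity
  rw [hlr] at e2
  have a1 := (abs_le.1 hw1).1
  have a3 := (abs_le.1 hw3).2
  nlinarith

theorem kin_ovl_cond_neg (ξ ζ : ℝ) (j : ℕ) (n : ℤ) : kinCond (-ξ) (-ζ) j n ↔ kinCond ξ ζ j n := by
  unfold kinCond
  have e : ∀ y : ℝ, |(-ξ) + 2 * (-ζ) * y| = |ξ + 2 * ζ * y| := by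
    intro y
    rw [← abs_neg]
    congr 1
    ring
  rw [e, e]

theorem kin_ovl_cls_neg (ξ ζ : ℝ) (k : ℕ) (x : ℝ) : kinCls (-ξ) (-ζ) k x = kinCls ξ ζ k x := by
  have h : kinLev (-ξ) (-ζ) k x = kinLev ξ ζ k x := by
    unfold kinLev
    simp only [kin_ovl_cond_neg]
  unfold kinCls
  rw [h]

/-- at most two classes of level `≥ 1` with `q' ≥ 0` -/
theorem kin_ovl_two (hL : KinSelC) (ξ ζ : ℝ) (k : ℕ) (s : ℝ) (T : Finset ℝ)
    (hT : ∀ x ∈ T, |x| ≤ 1 ∧ |s + (ξ * x + ζ * x ^ 2)| ≤ 1 / 32 ∧ 1 ≤ kinLev ξ ζ k x ∧ 0 ≤ ξ + 2 * ζ * x) :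
    (T.image (kinCls ξ ζ k)).card ≤ 2 := by
  by_contra hcon
  rw [not_le, Finset.two_lt_card_iff] at hcon
  obtain ⟨a, b, c, ha, hb, hc, hab, hac, hbc⟩ := hcon
  obtain ⟨xa, hxa, rfl⟩ := Finset.mem_image.1 ha
  obtain ⟨xb, hxb, rfl⟩ := Finset.mem_image.1 hb
  obtain ⟨xc, hxc, rfl⟩ := Finset.mem_image.1 hc
  have key : ∀ x1 ∈ T, ∀ x2 ∈ T, ∀ x3 ∈ T, x1 < x2 → x2 < x3 → kinCls ξ ζ k x1 ≠ kinCls ξ ζ k x2 →
      kinCls ξ ζ k x3 ≠ kinCls ξ ζ k x2 → False := by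
    intro x1 h1 x2 h2 x3 h3 h12 h23 c1 c3
    exact kin_ovl_three hL h12 h23 (hT x2 h2).1 (hT x1 h1).2.2.2 (hT x3 h3).2.2.2 (hT x1 h1).2.1 (hT x3 h3).2.1
      (hT x2 h2).2.2.1 c1 c3
  rcases lt_trichotomy xa xb with h1 | h1 | h1
  · rcases lt_trichotomy xb xc with h2 | h2 | h2
    · exact key xa hxa xb hxb xc hxc h1 h2 hab hbc.symm
    · exact hbc (by rw [h2])
    · rcases lt_trichotomy xa xc with h3 | h3 | h3
      · exact key xa hxa xc hxc xb hxb h3 h2 hac hbc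
      · exact hac (by rw [h3])
      · exact key xc hxc xa hxa xb hxb h3 h1 hac.symm hab.symm
  · exact hab (by rw [h1])
  · rcases lt_trichotomy xa xc with h2 | h2 | h2
    · exact key xb hxb xa hxa xc hxc h1 h2 hab.symm hac.symm
    · exact hac (by rw [h2])
    · rcases lt_trichotomy xb xc with h3 | h3 | h3
      · exact key xb hxb xc hxc xa hxa h3 h2 hbc hac
      · exact hbc (by rw [h3])
      · exact key xc hxc xb hxb xa hxa h3 h1 hbc.symm hab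

/-- at most three classes of level `0` -/
theorem kin_ovl_zero (ξ ζ : ℝ) (k : ℕ) (T : Finset ℝ) (hT : ∀ x ∈ T, |x| ≤ 1 ∧ kinLev ξ ζ k x = 0) :
    (T.image (kinCls ξ ζ k)).card ≤ 3 := by
  have hsub : T.image (kinCls ξ ζ k) ⊆ ({((0 : ℕ), (-1 : ℤ)), (0, 0), (0, 1)} : Finset (ℕ × ℤ)) := by
    intro g hg
    obtain ⟨x, hx, rfl⟩ := Finset.mem_image.1 hg
    obtain ⟨h1, h2⟩ := hT x hx
    obtain ⟨a1, a2⟩ := abs_le.1 h1
    unfold kinCls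
    rw [h2]
    have b1 : (-1 : ℤ) ≤ kinIdx 0 x := by
      unfold kinIdx
      rw [Int.le_floor]
      push_cast
      linarith
    have b2 : kinIdx 0 x ≤ 1 := by
      have h3 : ((kinIdx 0 x : ℤ) : ℝ) ≤ x * 2 ^ 0 := Int.floor_le _
      have h4 : ((kinIdx 0 x : ℤ) : ℝ) ≤ ((1 : ℤ) : ℝ) := by push_cast; linarith
      exact_mod_cast h4
    have b3 : kinIdx 0 x = -1 ∨ kinIdx 0 x = 0 ∨ kinIdx 0 x = 1 := by omega
    rcases b3 with h | h | h <;> rw [h] <;> simp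
  exact (Finset.card_le_card hsub).trans (Finset.card_le_three)

/-- **[OVL]** -/
theorem kin_ovl (hL : KinSelC) : KinOvlC := by
  classical
  intro ξ ζ k s T hT
  set T0 := T.filter fun x => kinLev ξ ζ k x = 0 with hT0
  set Tp := T.filter fun x => 1 ≤ kinLev ξ ζ k x ∧ 0 ≤ ξ + 2 * ζ * x with hTp
  set Tm := T.filter fun x => 1 ≤ kinLev ξ ζ k x ∧ 0 ≤ (-ξ) + 2 * (-ζ) * x with hTm
  have hcov : T ⊆ T0 ∪ (Tp ∪ Tm) := by
    intro x hx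
    simp only [hT0, hTp, hTm, Finset.mem_union, Finset.mem_filter]
    rcases Nat.eq_zero_or_pos (kinLev ξ ζ k x) with h | h
    · exact Or.inl ⟨hx, h⟩
    · rcases le_total 0 (ξ + 2 * ζ * x) with h2 | h2
      · exact Or.inr (Or.inl ⟨hx, h, h2⟩)
      · exact Or.inr (Or.inr ⟨hx, h, by linarith⟩)
  have c0 : (T0.image (kinCls ξ ζ k)).card ≤ 3 := by
    refine kin_ovl_zero ξ ζ k T0 fun x hx => ?_
    rw [hT0, Finset.mem_filter] at hx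
    exact ⟨(hT x hx.1).1, hx.2⟩
  have cp : (Tp.image (kinCls ξ ζ k)).card ≤ 2 := by
    refine kin_ovl_two hL ξ ζ k s Tp fun x hx => ?_
    rw [hTp, Finset.mem_filter] at hx
    exact ⟨(hT x hx.1).1, (hT x hx.1).2, hx.2.1, hx.2.2⟩
  have cm : (Tm.image (kinCls ξ ζ k)).card ≤ 2 := by
    have h := kin_ovl_two hL (-ξ) (-ζ) k (-s) Tm fun x hx => ?_
    · have e : Tm.image (kinCls (-ξ) (-ζ) k) = Tm.image (kinCls ξ ζ k) :=
        Finset.image_congr fun x _ => kin_ovl_cls_neg ξ ζ k x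
      rwa [e] at h
    · rw [hTm, Finset.mem_filter] at hx
      have e1 : kinLev (-ξ) (-ζ) k x = kinLev ξ ζ k x := congrArg Prod.fst (kin_ovl_cls_neg ξ ζ k x)
      refine ⟨(hT x hx.1).1, ?_, by rw [e1]; exact hx.2.1, hx.2.2⟩
      have e2 : -s + (-ξ * x + -ζ * x ^ 2) = -(s + (ξ * x + ζ * x ^ 2)) := by ring
      rw [e2, abs_neg]
      exact (hT x hx.1).2
  calc (T.image (kinCls ξ ζ k)).card ≤ ((T0 ∪ (Tp ∪ Tm)).image (kinCls ξ ζ k)).card :=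
        Finset.card_le_card (Finset.image_subset_image hcov)
    _ ≤ (T0.image (kinCls ξ ζ k)).card + ((Tp.image (kinCls ξ ζ k)).card + (Tm.image (kinCls ξ ζ k)).card) := by
        rw [Finset.image_union, Finset.image_union]
        exact (Finset.card_union_le _ _).trans (Nat.add_le_add_left (Finset.card_union_le _ _) _)
    _ ≤ 9 := by omega

end Claimed.Agent.R256
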