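import Claimed.Agent.R256.Kin.Plans

/-!
# Row 256, unit KIN, leaf [PAIR]: `∫∫ faG α β a · cos · Ψ = ∫ θ(t) K(dB + t dX, dY + t dS) dt`.     Prefix `kin_pair`.
-/

set_option autoImplicit false

namespace Claimed.Agent.R256

open Finset MeasureTheory Real
open Claimed.Agent.RW (faG faK)

/-- the window is integrable -/
theorem kin_pair_theta_int (W : KinWin) : Integrable W.θ := by
  refine W.θ_int.mono' W.θ_cont.aestronglyMeasurable (Filter.Eventually.of_forall fun t => ?_)
  rw [Real.norm_eq_abs, abs_of_nonneg (W.θ_nonneg t)]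
  have h1 : (1 : ℝ) ≤ (2 + |t|) ^ 2 := by nlinarith [abs_nonneg t]
  nlinarith [W.θ_nonneg t]

/-- product integrability: integrable ⊗ integrable times bounded continuous -/
theorem kin_pair_prod (f θ : ℝ → ℝ) (hf : Integrable f) (hθ : Integrable θ) (c : ℝ → ℝ → ℝ)
    (hc : Continuous (fun p : ℝ × ℝ => c p.1 p.2)) (M : ℝ) (hb : ∀ x t, |c x t| ≤ M) :
    Integrable (Function.uncurry fun x t : ℝ => f x * θ t * c x t) (volume.prod volume) := by
  have h1 : Integrable (fun p : ℝ × ℝ => f p.1 * θ p.2) (volume.prod volume) := hf.mul_prod hθ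
  refine h1.mul_bdd (c := M) hc.aestronglyMeasurable (Filter.Eventually.of_forall fun p => ?_)
  rw [Real.norm_eq_abs]
  exact hb _ _

/-- `cos A · Ψ(b) = ∫ θ(t) cos(A + 2π t b) dt` -/
theorem kin_pair_cos (W : KinWin) (A b : ℝ) :
    cos A * kinPsi W b = ∫ t, W.θ t * cos (A + 2 * π * (t * b)) := by
  have hθ := kin_pair_theta_int W
  have hc : Integrable fun t => W.θ t * cos (2 * π * (t * b)) :=
    hθ.mul_bdd (c := 1) (by fun_prop : Continuous fun t : ℝ => cos (2 * π * (t * b))).aestronglyMeasurable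
      (Filter.Eventually.of_forall fun t => by rw [Real.norm_eq_abs]; exact abs_cos_le_one _)
  have hs : Integrable fun t => W.θ t * sin (2 * π * (t * b)) :=
    hθ.mul_bdd (c := 1) (by fun_prop : Continuous fun t : ℝ => sin (2 * π * (t * b))).aestronglyMeasurable
      (Filter.Eventually.of_forall fun t => by rw [Real.norm_eq_abs]; exact abs_sin_le_one _)
  have h0 : ∫ t, W.θ t * sin (2 * π * (t * b)) = 0 := by
    have h1 := integral_neg_eq_self (fun t => W.θ t * sin (2 * π * (t * b))) volume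
    have h2 : ∀ t : ℝ, W.θ (-t) * sin (2 * π * (-t * b)) = -(W.θ t * sin (2 * π * (t * b))) := by
      intro t
      rw [show 2 * π * (-t * b) = -(2 * π * (t * b)) by ring, sin_neg, W.θ_even]
      ring
    simp only [h2, integral_neg] at h1
    linarith
  have h3 : ∀ t, W.θ t * cos (A + 2 * π * (t * b)) =
      cos A * (W.θ t * cos (2 * π * (t * b))) - sin A * (W.θ t * sin (2 * π * (t * b))) := by
    intro t
    rw [cos_add]
    ring
  simp only [h3]
  rw [integral_sub (hc.const_mul _) (hs.const_mul _), integral_const_mul, integral_const_mul, h0,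
    W.corr b, mul_zero, sub_zero]
  rfl

/-- **[PAIR]** -/
theorem kin_pair : KinPairC := by
  intro W α β hα hβ a dB dY dX dS
  have hθ := kin_pair_theta_int W
  have e1 : ∀ ξ ζ : ℝ,
      faG α β a ξ ζ * (cos (2 * π * (ξ * dB + ζ * dY)) * kinPsi W (ξ * dX + ζ * dS)) =
      ∫ t, faG α β a ξ ζ * W.θ t * cos (2 * π * (ξ * (dB + t * dX) + ζ * (dY + t * dS))) := by
    intro ξ ζ
    rw [kin_pair_cos, ← integral_const_mul]
    refine integral_congr_ae (Filter.Eventually.of_forall fun t => ?_)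
    show faG α β a ξ ζ * (W.θ t * cos (2 * π * (ξ * dB + ζ * dY) + 2 * π * (t * (ξ * dX + ζ * dS)))) =
      faG α β a ξ ζ * W.θ t * cos (2 * π * (ξ * (dB + t * dX) + ζ * (dY + t * dS)))
    rw [show 2 * π * (ξ * dB + ζ * dY) + 2 * π * (t * (ξ * dX + ζ * dS)) =
      2 * π * (ξ * (dB + t * dX) + ζ * (dY + t * dS)) by ring]
    ring
  have hG : ∀ ζ, Integrable fun ξ => faG α β a ξ ζ := by
    intro ζ
    have h1 := RW.fa_integrable_gauss hα (a * ζ) 0 0
    simp only [mul_zero, add_zero, cos_zero, mul_one] at h1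
    unfold faG
    exact h1.mul_const _
  have hE : Integrable fun ζ : ℝ => exp (-π * β * ζ ^ 2) := by
    have h1 := RW.fa_integrable_gauss hβ 0 0 0
    simpa only [mul_zero, add_zero, cos_zero, mul_one] using h1
  have P1 : ∀ ζ, Integrable (Function.uncurry fun ξ t : ℝ => faG α β a ξ ζ * W.θ t *
      cos (2 * π * (ξ * (dB + t * dX) + ζ * (dY + t * dS)))) (volume.prod volume) :=
    fun ζ => kin_pair_prod _ _ (hG ζ) hθ
      (fun ξ t => cos (2 * π * (ξ * (dB + t * dX) + ζ * (dY + t * dS)))) (by fun_prop) 1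
      (fun _ _ => abs_cos_le_one _)
  have hsα : 0 ≤ (sqrt α)⁻¹ := by positivity
  have P2 : Integrable (Function.uncurry fun ζ t : ℝ => exp (-π * β * ζ ^ 2) * W.θ t *
      ((sqrt α)⁻¹ * exp (-π * (dB + t * dX) ^ 2 / α) *
        cos (2 * π * (ζ * ((dY + t * dS) - a * (dB + t * dX)))))) (volume.prod volume) := by
    refine kin_pair_prod _ _ hE hθ (fun ζ t => (sqrt α)⁻¹ * exp (-π * (dB + t * dX) ^ 2 / α) *
        cos (2 * π * (ζ * ((dY + t * dS) - a * (dB + t * dX))))) (by fun_prop) (sqrt α)⁻¹ ?_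
    intro ζ t
    rw [abs_mul, abs_mul, abs_of_nonneg hsα, abs_of_nonneg (exp_pos _).le]
    have h1 : exp (-π * (dB + t * dX) ^ 2 / α) ≤ 1 := by
      rw [exp_le_one_iff]
      have : 0 ≤ π * (dB + t * dX) ^ 2 / α := by positivity
      have h2 : -π * (dB + t * dX) ^ 2 / α = -(π * (dB + t * dX) ^ 2 / α) := by ring
      linarith
    have h2 := abs_cos_le_one (2 * π * (ζ * ((dY + t * dS) - a * (dB + t * dX))))
    calc (sqrt α)⁻¹ * exp (-π * (dB + t * dX) ^ 2 / α) *
          |cos (2 * π * (ζ * ((dY + t * dS) - a * (dB + t * dX))))|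
        ≤ (sqrt α)⁻¹ * 1 * 1 := by
          gcongr
      _ = (sqrt α)⁻¹ := by ring
  have e2 : ∀ ζ, ∫ ξ, faG α β a ξ ζ * (cos (2 * π * (ξ * dB + ζ * dY)) * kinPsi W (ξ * dX + ζ * dS)) =
      ∫ t, exp (-π * β * ζ ^ 2) * W.θ t * ((sqrt α)⁻¹ * exp (-π * (dB + t * dX) ^ 2 / α) *
        cos (2 * π * (ζ * ((dY + t * dS) - a * (dB + t * dX))))) := by
    intro ζ
    simp only [e1]
    rw [integral_integral_swap (P1 ζ)]
    refine integral_congr_ae (Filter.Eventually.of_forall fun t => ?_)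
    show ∫ ξ, faG α β a ξ ζ * W.θ t * cos (2 * π * (ξ * (dB + t * dX) + ζ * (dY + t * dS))) = _
    have h1 : ∀ ξ, faG α β a ξ ζ * W.θ t * cos (2 * π * (ξ * (dB + t * dX) + ζ * (dY + t * dS))) =
        W.θ t * (faG α β a ξ ζ * cos (2 * π * (ξ * (dB + t * dX) + ζ * (dY + t * dS)))) :=
      fun ξ => by ring
    simp only [h1]
    rw [integral_const_mul, RW.fa_gauss_inner hα]
    ring
  refine ⟨fun ζ => ?_, ?_, ?_⟩
  · simp only [e1]
    exact (P1 ζ).integral_prod_left
  · simp only [e2]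
    exact P2.integral_prod_left
  · simp only [e2]
    rw [integral_integral_swap P2]
    refine integral_congr_ae (Filter.Eventually.of_forall fun t => ?_)
    show ∫ ζ, exp (-π * β * ζ ^ 2) * W.θ t * ((sqrt α)⁻¹ * exp (-π * (dB + t * dX) ^ 2 / α) *
        cos (2 * π * (ζ * ((dY + t * dS) - a * (dB + t * dX))))) = _
    unfold faK
    simp only [RW.fa_gauss_inner hα]
    rw [← integral_const_mul]
    refine integral_congr_ae (Filter.Eventually.of_forall fun ζ => ?_)
    show exp (-π * β * ζ ^ 2) * W.θ t * ((sqrt α)⁻¹ * exp (-π * (dB + t * dX) ^ 2 / α) *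
        cos (2 * π * (ζ * ((dY + t * dS) - a * (dB + t * dX))))) = _
    ring

end Claimed.Agent.R256
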