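import Claimed.Agent.R256.Kin.Plans

/-!
# Row 256, unit KIN, leaf [SEL]: the stopping classes are full dyadic fibres, comparison of the Gaussian weights.     helper284.  Prefix `kin_sel`.
-/

set_option autoImplicit false

namespace Claimed.Agent.R256

open Finset MeasureTheory Real
open Claimed.Agent.RW (faG faK)

/-- comparison of the weights from the comparison of the exponents -/
theorem kin_sel_wt {δ R a ξ ζ : ℝ}
    (h : R ^ 2 / 9 * (ξ + a * ζ) ^ 2 + R ^ 4 / 9 * ζ ^ 2 ≤ 1 + δ ^ 2 * (ξ ^ 2 + ζ ^ 2)) :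
    faG (δ ^ 2) (δ ^ 2) 0 ξ ζ ≤ exp π * faG (R ^ 2 / 9) (R ^ 4 / 9) a ξ ζ := by
  unfold faG
  rw [← exp_add, ← exp_add, ← exp_add, exp_le_exp]
  have := mul_le_mul_of_nonneg_left h pi_pos.le
  nlinarith

/-- dyadic ancestors -/
theorem kin_sel_anc {j j' : ℕ} (hj : j' ≤ j) (x : ℝ) :
    kinIdx j' x = kinIdx j x / ((2 ^ (j - j') : ℕ) : ℤ) := by
  unfold kinIdx
  rw [← Int.floor_div_natCast]
  congr 1
  have h2 : (2 : ℝ) ^ j = 2 ^ j' * 2 ^ (j - j') := by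
    rw [← pow_add, Nat.add_sub_cancel' hj]
  push_cast
  rw [h2]
  field_simp

theorem kin_sel_anc_eq {j j' : ℕ} (hj : j' ≤ j) {x x' : ℝ} (h : kinIdx j x' = kinIdx j x) :
    kinIdx j' x' = kinIdx j' x := by
  rw [kin_sel_anc hj x', kin_sel_anc hj x, h]

theorem kin_sel_mem (ξ ζ : ℝ) (k : ℕ) (x : ℝ) :
    kinLev ξ ζ k x = k ∨ kinCond ξ ζ (kinLev ξ ζ k x) (kinIdx (kinLev ξ ζ k x) x) :=
  Nat.sInf_mem (s := {j : ℕ | j = k ∨ kinCond ξ ζ j (kinIdx j x)}) ⟨k, Or.inl rfl⟩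

theorem kin_sel_le {ξ ζ : ℝ} {k : ℕ} {x : ℝ} {j : ℕ} (h : j = k ∨ kinCond ξ ζ j (kinIdx j x)) :
    kinLev ξ ζ k x ≤ j :=
  Nat.sInf_le (s := {j : ℕ | j = k ∨ kinCond ξ ζ j (kinIdx j x)}) h

theorem kin_sel_lev_eq {ξ ζ : ℝ} {k : ℕ} {x x' : ℝ}
    (h : kinIdx (kinLev ξ ζ k x) x' = kinIdx (kinLev ξ ζ k x) x) :
    kinLev ξ ζ k x' = kinLev ξ ζ k x := by
  have h1 : kinLev ξ ζ k x' ≤ kinLev ξ ζ k x := by
    refine kin_sel_le ?_
    rw [h]
    exact kin_sel_mem ξ ζ k x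
  refine le_antisymm h1 (kin_sel_le ?_)
  rw [← kin_sel_anc_eq h1 h]
  exact kin_sel_mem ξ ζ k x'

/-- [SEL] -/
theorem kin_sel : KinSelC := by
  intro ξ ζ k x hx
  refine ⟨kin_sel_le (Or.inl rfl), fun x' h => ?_, ?_⟩
  · have h1 := kin_sel_lev_eq h
    unfold kinCls
    rw [h1, h]
  · refine kin_sel_wt ?_
    set j := kinLev ξ ζ k x with hj
    set n := kinIdx j x with hn
    set R : ℝ := (1 / 2 : ℝ) ^ j with hR
    set δ : ℝ := (1 / 2 : ℝ) ^ k with hδ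
    have hR0 : 0 < R := by positivity
    rcases kin_sel_mem ξ ζ k x with hk | hc
    · -- `j = k`
      have hRδ : δ = R := by rw [hδ, hR, hj, hk]
      rw [hRδ]
      have hR1 : R ≤ 1 := pow_le_one₀ (by norm_num) (by norm_num)
      have hR2 : R * 2 ^ j = 1 := by
        rw [hR, ← mul_pow]
        norm_num
      obtain ⟨hx1, hx2⟩ := abs_le.1 hx
      have hp : (0 : ℝ) < 2 ^ j := by positivity
      have hn1 : (n : ℝ) ≤ x * 2 ^ j := Int.floor_le _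
      have hn2 : -(2 : ℝ) ^ j ≤ n := by
        have h3 : (-(2 : ℤ) ^ j) ≤ n := by
          rw [hn]
          unfold kinIdx
          rw [Int.le_floor]
          push_cast
          nlinarith
        exact_mod_cast h3
      set y : ℝ := n * R with hy
      have hy1 : y ≤ 1 := by
        have : y ≤ x * 2 ^ j * R := mul_le_mul_of_nonneg_right hn1 hR0.le
        have e : x * 2 ^ j * R = x := by rw [mul_assoc, mul_comm (2 ^ j) R, hR2, mul_one]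
        linarith
      have hy2 : -1 ≤ y := by
        have : -(2 : ℝ) ^ j * R ≤ y := mul_le_mul_of_nonneg_right hn2 hR0.le
        have e : -(2 : ℝ) ^ j * R = -1 := by rw [neg_mul, mul_comm, hR2]
        linarith
      have hyy : y ^ 2 ≤ 1 := by nlinarith
      have e1 : (ξ + 2 * y * ζ) ^ 2 ≤ 2 * ξ ^ 2 + 8 * ζ ^ 2 := by
        have e0 : y ^ 2 * ζ ^ 2 ≤ 1 * ζ ^ 2 := mul_le_mul_of_nonneg_right hyy (sq_nonneg ζ)
        nlinarith [sq_nonneg (ξ - 2 * y * ζ)]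
      have e2 : R ^ 4 ≤ R ^ 2 := pow_le_pow_of_le_one hR0.le hR1 (by norm_num)
      have e3 : R ^ 2 / 9 * (ξ + 2 * y * ζ) ^ 2 ≤ R ^ 2 / 9 * (2 * ξ ^ 2 + 8 * ζ ^ 2) :=
        mul_le_mul_of_nonneg_left e1 (by positivity)
      have e4 : R ^ 4 / 9 * ζ ^ 2 ≤ R ^ 2 / 9 * ζ ^ 2 :=
        mul_le_mul_of_nonneg_right (by linarith) (sq_nonneg ζ)
      have e5 : 0 ≤ R ^ 2 * ξ ^ 2 := by positivity
      nlinarith
    · obtain ⟨c1, c2⟩ := hc
      rw [← hR] at c1 c2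
      rw [← abs_of_pos hR0, ← abs_mul, abs_of_pos hR0] at c1 c2
      obtain ⟨a1, a2⟩ := abs_le.1 c1
      obtain ⟨b1, b2⟩ := abs_le.1 c2
      set p := R * (ξ + 2 * ζ * (n * R)) with hp
      set q := R * (ξ + 2 * ζ * ((n + 1) * R)) with hq
      have hqp : q - p = 2 * (R ^ 2 * ζ) := by rw [hp, hq]; ring
      have hpp : p ^ 2 ≤ 1 := by nlinarith
      have hz1 : R ^ 2 * ζ ≤ 1 := by linarith
      have hz2 : -1 ≤ R ^ 2 * ζ := by linarith
      have hzz : (R ^ 2 * ζ) ^ 2 ≤ 1 := by nlinarith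
      have e1 : R ^ 2 / 9 * (ξ + 2 * (n * R) * ζ) ^ 2 = p ^ 2 / 9 := by rw [hp]; ring
      have e2 : R ^ 4 / 9 * ζ ^ 2 = (R ^ 2 * ζ) ^ 2 / 9 := by ring
      have e3 : 0 ≤ δ ^ 2 * (ξ ^ 2 + ζ ^ 2) := by positivity
      rw [e1, e2]
      linarith

end Claimed.Agent.R256
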