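import Claimed.Agent.R256.Kin.Plans

/-!
# Row 256, unit KIN, leaf [SQ] (L-KIN-SQ, helper61): the power spectrum is an integral of squares.
-/

set_option autoImplicit false

namespace Claimed.Agent.R256

open Finset MeasureTheory Real

theorem kin_sq_supp (W : KinWin) : HasCompactSupport W.ψ := by
  refine HasCompactSupport.intro (K := Set.Icc (-(1 / 32 : ℝ)) (1 / 32)) isCompact_Icc ?_
  intro s hs
  apply W.ψ_supp
  by_contra h
  exact hs (abs_le.1 (not_lt.1 h))

theorem kin_sq_int (W : KinWin) (a a' : ℝ) : Integrable fun s => W.ψ (s + a) * W.ψ (s + a') := by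
  have hc : Continuous fun s => W.ψ (s + a) * W.ψ (s + a') :=
    (W.ψ_cont.comp (continuous_id.add continuous_const)).mul (W.ψ_cont.comp (continuous_id.add continuous_const))
  have hs : HasCompactSupport fun s => W.ψ (s + a) * W.ψ (s + a') := by
    have h1 : HasCompactSupport fun s => W.ψ (s + a) := by
      exact (kin_sq_supp W).comp_homeomorph (Homeomorph.addRight a)
    exact h1.mul_right
  exact hc.integrable_of_hasCompactSupport hs

theorem kin_sq_corr (W : KinWin) (a a' : ℝ) : ∫ s, W.ψ (s + a) * W.ψ (s + a') = kinPsi W (a - a') := by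
  unfold kinPsi
  rw [← integral_add_right_eq_self (fun s => W.ψ (s + (a - a')) * W.ψ s) a']
  refine integral_congr_ae (Filter.Eventually.of_forall fun s => ?_)
  have : s + a' + (a - a') = s + a := by ring
  simp only [this]

theorem kin_sq_expand {ι : Type} (F : KinFam ι) (W : KinWin) (S : Finset ι) (ξ ζ s : ℝ) :
    kinAc F W S ξ ζ s ^ 2 + kinAs F W S ξ ζ s ^ 2 =
      ∑ i ∈ S, ∑ i' ∈ S, F.m i * F.m i' * cos (kinPh F ξ ζ i - kinPh F ξ ζ i') *
        (W.ψ (s + kinQ F ξ ζ i) * W.ψ (s + kinQ F ξ ζ i')) := by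
  unfold kinAc kinAs
  rw [sq, sq, Finset.sum_mul_sum, Finset.sum_mul_sum, ← Finset.sum_add_distrib]
  refine Finset.sum_congr rfl fun i _ => ?_
  rw [← Finset.sum_add_distrib]
  refine Finset.sum_congr rfl fun i' _ => ?_
  rw [cos_sub]
  ring

/-- **[SQ]** -/
theorem kin_sq : KinSqC := by
  intro ι F W S ξ ζ
  have hfun : (fun s => kinAc F W S ξ ζ s ^ 2 + kinAs F W S ξ ζ s ^ 2) = fun s =>
      ∑ i ∈ S, ∑ i' ∈ S, F.m i * F.m i' * cos (kinPh F ξ ζ i - kinPh F ξ ζ i') *
        (W.ψ (s + kinQ F ξ ζ i) * W.ψ (s + kinQ F ξ ζ i')) := funext fun s => kin_sq_expand F W S ξ ζ s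
  have hint : ∀ i i', Integrable fun s => F.m i * F.m i' * cos (kinPh F ξ ζ i - kinPh F ξ ζ i') *
        (W.ψ (s + kinQ F ξ ζ i) * W.ψ (s + kinQ F ξ ζ i')) := fun i i' => (kin_sq_int W _ _).const_mul _
  have hint1 : ∀ i, Integrable fun s => ∑ i' ∈ S, F.m i * F.m i' * cos (kinPh F ξ ζ i - kinPh F ξ ζ i') *
        (W.ψ (s + kinQ F ξ ζ i) * W.ψ (s + kinQ F ξ ζ i')) := fun i => integrable_finsetSum _ fun i' _ => hint i i'
  refine ⟨?_, ?_⟩
  · rw [hfun]
    exact integrable_finsetSum _ fun i _ => hint1 i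
  · rw [hfun, integral_finsetSum _ fun i _ => hint1 i]
    unfold kinP
    refine Finset.sum_congr rfl fun i _ => ?_
    rw [integral_finsetSum _ fun i' _ => hint i i']
    refine Finset.sum_congr rfl fun i' _ => ?_
    rw [integral_const_mul, kin_sq_corr]
    ring

end Claimed.Agent.R256
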