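import Claimed.Agent.R256.Kin.Plans

/-!
# Row 256, unit KIN, leaf [SUP]: `kin_sup (hK : KinKerC) : KinSupC`      (helper259; architect helper132).   Prefix `kin_sup`.
Integrate the kernel bound [KER] against `θ`.   Reusable: `kin_sup_theta_int` (`θ` integrable), `kin_sup_K_int` (`t ↦ θ(t) K(dB + t dX, dY + t dS)` integrable), `kin_sup_K_nonneg`.
-/

set_option autoImplicit false

namespace Claimed.Agent.R256

open Finset MeasureTheory Real
open Claimed.Agent.RW (faG faK)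

theorem kin_sup_theta_int (W : KinWin) : Integrable W.θ := by
  refine W.θ_int.mono' W.θ_cont.aestronglyMeasurable (Filter.Eventually.of_forall fun t => ?_)
  rw [Real.norm_of_nonneg (W.θ_nonneg t)]
  have h1 : (1 : ℝ) ≤ (2 + |t|) ^ 2 := by nlinarith [abs_nonneg t]
  exact le_mul_of_one_le_left (W.θ_nonneg t) h1

theorem kin_sup_K_nonneg {α β : ℝ} (hα : 0 < α) (hβ : 0 < β) (a u v : ℝ) : 0 ≤ faK (faG α β a) u v := by
  rw [RW.fa_gauss_K hα hβ]
  positivity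

theorem kin_sup_K_le {α β : ℝ} (hα : 0 < α) (hβ : 0 < β) (a u v : ℝ) : faK (faG α β a) u v ≤ (sqrt α)⁻¹ * (sqrt β)⁻¹ := by
  rw [RW.fa_gauss_K hα hβ]
  have h1 : exp (-π * u ^ 2 / α) ≤ 1 := by
    rw [exp_le_one_iff]
    have : 0 ≤ π * u ^ 2 / α := by positivity
    have e : -π * u ^ 2 / α = -(π * u ^ 2 / α) := by ring
    linarith
  have h2 : exp (-π * (v - a * u) ^ 2 / β) ≤ 1 := by
    rw [exp_le_one_iff]
    have : 0 ≤ π * (v - a * u) ^ 2 / β := by positivity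
    have e : -π * (v - a * u) ^ 2 / β = -(π * (v - a * u) ^ 2 / β) := by ring
    linarith
  have h3 : exp (-π * u ^ 2 / α) * exp (-π * (v - a * u) ^ 2 / β) ≤ 1 * 1 := mul_le_mul h1 h2 (exp_pos _).le zero_le_one
  calc (sqrt α)⁻¹ * (sqrt β)⁻¹ * (exp (-π * u ^ 2 / α) * exp (-π * (v - a * u) ^ 2 / β)) ≤ (sqrt α)⁻¹ * (sqrt β)⁻¹ * (1 * 1) :=
        mul_le_mul_of_nonneg_left h3 (by positivity)
    _ = _ := by ring

theorem kin_sup_K_cont {α β : ℝ} (hα : 0 < α) (hβ : 0 < β) (a dB dX dY dS : ℝ) :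
    Continuous fun t : ℝ => faK (faG α β a) (dB + t * dX) (dY + t * dS) := by
  simp only [RW.fa_gauss_K hα hβ]
  fun_prop

theorem kin_sup_K_int (W : KinWin) {α β : ℝ} (hα : 0 < α) (hβ : 0 < β) (a dB dX dY dS : ℝ) :
    Integrable fun t : ℝ => W.θ t * faK (faG α β a) (dB + t * dX) (dY + t * dS) := by
  refine ((kin_sup_theta_int W).mul_const ((sqrt α)⁻¹ * (sqrt β)⁻¹)).mono'
    (W.θ_cont.mul (kin_sup_K_cont hα hβ a dB dX dY dS)).aestronglyMeasurable (Filter.Eventually.of_forall fun t => ?_)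
  rw [Real.norm_of_nonneg (mul_nonneg (W.θ_nonneg t) (kin_sup_K_nonneg hα hβ a _ _))]
  exact mul_le_mul_of_nonneg_left (kin_sup_K_le hα hβ a _ _) (W.θ_nonneg t)

theorem kin_sup (hK : KinKerC) : KinSupC := by
  intro W ι _ F κ j n hκ hreg
  obtain ⟨α, hαe⟩ : ∃ α : ℝ, α = ((1 / 2 : ℝ) ^ j) ^ 2 / 9 := ⟨_, rfl⟩
  obtain ⟨β, hβe⟩ : ∃ β : ℝ, β = ((1 / 2 : ℝ) ^ j) ^ 4 / 9 := ⟨_, rfl⟩
  have hα : 0 < α := by rw [hαe]; positivity
  have hβ : 0 < β := by rw [hβe]; positivity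
  have hker := hK ι F κ j n hκ hreg
  rw [← hαe, ← hβe] at hker ⊢
  unfold kinE
  rw [Finset.mul_sum]
  refine Finset.sum_le_sum fun i hi => ?_
  have hint : ∀ i' : ι, Integrable fun t : ℝ => W.θ t * faK (faG α β (2 * (n * (1 / 2 : ℝ) ^ j)))
      (F.B i - F.B i' + t * (F.X i - F.X i')) (F.Y i - F.Y i' + t * (F.X i ^ 2 - F.X i' ^ 2)) :=
    fun i' => kin_sup_K_int W hα hβ _ _ _ _ _
  have h1 : ∑ i' ∈ kinS F j n, F.m i * F.m i' * ∫ t, W.θ t * faK (faG α β (2 * (n * (1 / 2 : ℝ) ^ j)))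
        (F.B i - F.B i' + t * (F.X i - F.X i')) (F.Y i - F.Y i' + t * (F.X i ^ 2 - F.X i' ^ 2))
      = F.m i * ∫ t, W.θ t * ∑ i' ∈ kinS F j n, F.m i' * faK (faG α β (2 * (n * (1 / 2 : ℝ) ^ j)))
        (F.B i - F.B i' + t * (F.X i - F.X i')) (F.Y i - F.Y i' + t * (F.X i ^ 2 - F.X i' ^ 2)) := by
    have h2 : ∀ t : ℝ, W.θ t * ∑ i' ∈ kinS F j n, F.m i' * faK (faG α β (2 * (n * (1 / 2 : ℝ) ^ j)))
          (F.B i - F.B i' + t * (F.X i - F.X i')) (F.Y i - F.Y i' + t * (F.X i ^ 2 - F.X i' ^ 2))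
        = ∑ i' ∈ kinS F j n, F.m i' * (W.θ t * faK (faG α β (2 * (n * (1 / 2 : ℝ) ^ j)))
          (F.B i - F.B i' + t * (F.X i - F.X i')) (F.Y i - F.Y i' + t * (F.X i ^ 2 - F.X i' ^ 2))) := by
      intro t
      rw [Finset.mul_sum]
      exact Finset.sum_congr rfl fun i' _ => by ring
    simp only [h2]
    rw [integral_finsetSum _ fun i' _ => (hint i').const_mul _, Finset.mul_sum]
    refine Finset.sum_congr rfl fun i' _ => ?_
    rw [integral_const_mul]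
    ring
  rw [h1]
  have h3 : ∫ t, W.θ t * ∑ i' ∈ kinS F j n, F.m i' * faK (faG α β (2 * (n * (1 / 2 : ℝ) ^ j)))
        (F.B i - F.B i' + t * (F.X i - F.X i')) (F.Y i - F.Y i' + t * (F.X i ^ 2 - F.X i' ^ 2))
      ≤ ∫ t, 9 * exp (2 * π) * κ * ((2 + |t|) ^ 2 * W.θ t) := by
    refine integral_mono ?_ (W.θ_int.const_mul _) fun t => ?_
    · have h2 : (fun t : ℝ => W.θ t * ∑ i' ∈ kinS F j n, F.m i' * faK (faG α β (2 * (n * (1 / 2 : ℝ) ^ j)))
            (F.B i - F.B i' + t * (F.X i - F.X i')) (F.Y i - F.Y i' + t * (F.X i ^ 2 - F.X i' ^ 2)))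
          = fun t : ℝ => ∑ i' ∈ kinS F j n, F.m i' * (W.θ t * faK (faG α β (2 * (n * (1 / 2 : ℝ) ^ j)))
            (F.B i - F.B i' + t * (F.X i - F.X i')) (F.Y i - F.Y i' + t * (F.X i ^ 2 - F.X i' ^ 2))) := by
        funext t
        rw [Finset.mul_sum]
        exact Finset.sum_congr rfl fun i' _ => by ring
      rw [h2]
      exact integrable_finsetSum _ fun i' _ => (hint i').const_mul _
    · have := mul_le_mul_of_nonneg_left (hker i hi t) (W.θ_nonneg t)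
      show W.θ t * _ ≤ 9 * exp (2 * π) * κ * ((2 + |t|) ^ 2 * W.θ t)
      linarith
  rw [integral_const_mul] at h3
  have h4 := mul_le_mul_of_nonneg_left h3 (F.m_nonneg i)
  unfold kinCθ
  linarith

end Claimed.Agent.R256
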