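import Claimed.Agent.R256.Kin.Plans

/-!
# Row 256, unit KIN, leaf [WIN]: existence of the time window.     Prefix `kin_win`.
`f` a smooth bump, `= 1` on `[-1/64,1/64]`, supported in `[-1/32,1/32]`; `ψ = 64 f`, `θ = 4096 |f^|²`.
-/

set_option autoImplicit false

namespace Claimed.Agent.R256

open Finset MeasureTheory Real
open scoped FourierTransform SchwartzMap

/-- the bump -/
noncomputable def kin_win_f : ContDiffBump (0 : ℝ) := ⟨1 / 64, 1 / 32, by norm_num, by norm_num⟩

theorem kin_win_supp (a : ℝ) : HasCompactSupport (fun s : ℝ => ((kin_win_f (s + a) : ℝ) : ℂ)) := by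
  have h1 : HasCompactSupport (fun s : ℝ => kin_win_f (s + a)) :=
    kin_win_f.hasCompactSupport.comp_homeomorph (Homeomorph.addRight a)
  exact h1.comp_left (g := fun x : ℝ => (x : ℂ)) Complex.ofReal_zero

/-- the translated bump as a Schwartz function -/
noncomputable def kin_win_g (a : ℝ) : 𝓢(ℝ, ℂ) :=
  HasCompactSupport.toSchwartzMap (f := fun s : ℝ => ((kin_win_f (s + a) : ℝ) : ℂ)) (kin_win_supp a)
    (Complex.ofRealCLM.contDiff.comp (kin_win_f.contDiff.comp (contDiff_id.add contDiff_const)))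

theorem kin_win_g_apply (a s : ℝ) : kin_win_g a s = ((kin_win_f (s + a) : ℝ) : ℂ) := rfl

theorem kin_win_four (a t : ℝ) :
    𝓕 (kin_win_g a) t =
      ∫ v : ℝ, Complex.exp (↑(-2 * π * v * t) * Complex.I) * ((kin_win_f (v + a) : ℝ) : ℂ) := by
  rw [SchwartzMap.fourier_coe, Real.fourier_real_eq_integral_exp_smul]
  rfl

theorem kin_win_four0 (t : ℝ) :
    𝓕 (kin_win_g 0) t =
      ∫ v : ℝ, Complex.exp (↑(-2 * π * v * t) * Complex.I) * ((kin_win_f v : ℝ) : ℂ) := by
  rw [kin_win_four]
  simp only [add_zero]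

theorem kin_win_shift (a t : ℝ) :
    𝓕 (kin_win_g a) t = Complex.exp (↑(2 * π * a * t) * Complex.I) * 𝓕 (kin_win_g 0) t := by
  rw [kin_win_four, kin_win_four0, ← integral_const_mul]
  have h := integral_add_right_eq_self (μ := volume) (fun v : ℝ =>
    Complex.exp (↑(2 * π * a * t) * Complex.I) *
      (Complex.exp (↑(-2 * π * v * t) * Complex.I) * ((kin_win_f v : ℝ) : ℂ))) a
  rw [← h]
  refine integral_congr_ae (Filter.Eventually.of_forall fun v => ?_)
  show Complex.exp (↑(-2 * π * v * t) * Complex.I) * ((kin_win_f (v + a) : ℝ) : ℂ) =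
    Complex.exp (↑(2 * π * a * t) * Complex.I) *
      (Complex.exp (↑(-2 * π * (v + a) * t) * Complex.I) * ((kin_win_f (v + a) : ℝ) : ℂ))
  rw [← mul_assoc, ← Complex.exp_add]
  congr 2
  push_cast
  ring

/-- the window -/
noncomputable def kin_win_θ (t : ℝ) : ℝ := 4096 * ‖𝓕 (kin_win_g 0) t‖ ^ 2

theorem kin_win_int_pow (k : ℕ) : Integrable fun t : ℝ => |t| ^ k * ‖𝓕 (kin_win_g 0) t‖ ^ 2 := by
  obtain ⟨C, hC, hb⟩ := (𝓕 (kin_win_g 0)).decay 0 0
  have hb' : ∀ t, ‖𝓕 (kin_win_g 0) t‖ ≤ C := by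
    intro t
    have := hb t
    simpa using this
  have h1 := ((𝓕 (kin_win_g 0)).integrable_pow_mul volume k).const_mul C
  refine h1.mono' ?_ (Filter.Eventually.of_forall fun t => ?_)
  · exact ((continuous_abs.pow k).mul ((𝓕 (kin_win_g 0)).continuous.norm.pow 2)).aestronglyMeasurable
  · rw [Real.norm_eq_abs, abs_of_nonneg (by positivity), Real.norm_eq_abs]
    have h2 := hb' t
    have h3 : 0 ≤ ‖𝓕 (kin_win_g 0) t‖ := norm_nonneg _
    have h4 : 0 ≤ |t| ^ k := by positivity
    have h5 : ‖𝓕 (kin_win_g 0) t‖ ^ 2 ≤ C * ‖𝓕 (kin_win_g 0) t‖ := by nlinarith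
    calc |t| ^ k * ‖𝓕 (kin_win_g 0) t‖ ^ 2 ≤ |t| ^ k * (C * ‖𝓕 (kin_win_g 0) t‖) := by gcongr
      _ = C * (|t| ^ k * ‖𝓕 (kin_win_g 0) t‖) := by ring

theorem kin_win_even (t : ℝ) : kin_win_θ (-t) = kin_win_θ t := by
  unfold kin_win_θ
  have h : 𝓕 (kin_win_g 0) (-t) = 𝓕 (kin_win_g 0) t := by
    rw [kin_win_four0, kin_win_four0]
    have h1 := integral_neg_eq_self (fun v : ℝ =>
      Complex.exp (↑(-2 * π * v * t) * Complex.I) * ((kin_win_f v : ℝ) : ℂ)) volume
    rw [← h1]
    refine integral_congr_ae (Filter.Eventually.of_forall fun v => ?_)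
    show Complex.exp (↑(-2 * π * v * -t) * Complex.I) * ((kin_win_f v : ℝ) : ℂ) =
      Complex.exp (↑(-2 * π * (-v) * t) * Complex.I) * ((kin_win_f (-v) : ℝ) : ℂ)
    rw [kin_win_f.neg]
    congr 4
    ring
  rw [h]

theorem kin_win_cos {x : ℝ} (h : |x| ≤ π / 3) : 1 / 2 ≤ cos x := by
  rw [← cos_abs, ← cos_pi_div_three]
  exact cos_le_cos_of_nonneg_of_le_pi (abs_nonneg x) (by linarith [pi_pos]) h

theorem kin_win_zero {s : ℝ} (h : 1 / 32 ≤ |s|) : kin_win_f s = 0 := by
  apply kin_win_f.zero_of_le_dist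
  rw [Real.dist_eq, sub_zero]
  exact h

theorem kin_win_one {s : ℝ} (h : |s| ≤ 1 / 64) : kin_win_f s = 1 := by
  apply kin_win_f.one_of_mem_closedBall
  rw [Metric.mem_closedBall, Real.dist_eq, sub_zero]
  exact h

theorem kin_win_low (t : ℝ) (ht : |t| ≤ 2) : 1 ≤ kin_win_θ t := by
  have hint : Integrable fun v : ℝ =>
      Complex.exp (↑(-2 * π * v * t) * Complex.I) * ((kin_win_f v : ℝ) : ℂ) := by
    refine Continuous.integrable_of_hasCompactSupport ?_ ?_
    · have : Continuous fun v : ℝ => kin_win_f v := kin_win_f.continuous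
      fun_prop
    · have := kin_win_supp 0
      simp only [add_zero] at this
      exact this.mul_left
  have hre : (𝓕 (kin_win_g 0) t).re = ∫ v : ℝ, cos (-2 * π * v * t) * kin_win_f v := by
    rw [kin_win_four0]
    have h1 := integral_re hint
    simp only [RCLike.re_eq_complex_re] at h1
    rw [← h1]
    refine integral_congr_ae (Filter.Eventually.of_forall fun v => ?_)
    show (Complex.exp (↑(-2 * π * v * t) * Complex.I) * ((kin_win_f v : ℝ) : ℂ)).re = _
    rw [Complex.re_mul_ofReal, Complex.exp_ofReal_mul_I_re]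
  have hint2 : Integrable fun v : ℝ => cos (-2 * π * v * t) * kin_win_f v := by
    refine Continuous.integrable_of_hasCompactSupport ?_ ?_
    · have : Continuous fun v : ℝ => kin_win_f v := kin_win_f.continuous
      fun_prop
    · exact kin_win_f.hasCompactSupport.mul_left
  have h1 : (1 / 64 : ℝ) ≤ (𝓕 (kin_win_g 0) t).re := by
    rw [hre]
    have h2 : ∫ v : ℝ, (Set.Icc (-(1 / 64) : ℝ) (1 / 64)).indicator (fun _ => (1 / 2 : ℝ)) v = 1 / 64 := by
      rw [integral_indicator_const _ measurableSet_Icc, Real.volume_real_Icc_of_le (by norm_num)]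
      norm_num
    rw [← h2]
    refine integral_mono ?_ hint2 fun v => ?_
    · exact (continuous_const.integrableOn_Icc).integrable_indicator measurableSet_Icc
    · show (Set.Icc (-(1 / 64) : ℝ) (1 / 64)).indicator (fun _ => (1 / 2 : ℝ)) v ≤
        cos (-2 * π * v * t) * kin_win_f v
      have hf0 : 0 ≤ kin_win_f v := kin_win_f.nonneg
      by_cases hv : |v| < 1 / 32
      · have hc : 1 / 2 ≤ cos (-2 * π * v * t) := by
          apply kin_win_cos
          have e1 : |-2 * π * v * t| = 2 * π * (|v| * |t|) := by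
            rw [abs_mul, abs_mul, abs_mul, abs_neg, abs_of_pos pi_pos, abs_two]
            ring
          rw [e1]
          have e2 : |v| * |t| ≤ 1 / 32 * 2 := mul_le_mul hv.le ht (abs_nonneg _) (by norm_num)
          nlinarith [pi_pos]
        by_cases hv2 : v ∈ Set.Icc (-(1 / 64) : ℝ) (1 / 64)
        · rw [Set.indicator_of_mem hv2, kin_win_one (abs_le.2 hv2), mul_one]
          exact hc
        · rw [Set.indicator_of_notMem hv2]
          exact mul_nonneg (by linarith) hf0
      · have hv2 : v ∉ Set.Icc (-(1 / 64) : ℝ) (1 / 64) := by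
          intro h
          have := abs_le.2 h
          apply hv
          linarith
        rw [Set.indicator_of_notMem hv2, kin_win_zero (not_lt.1 hv), mul_zero]
  have h2 : (𝓕 (kin_win_g 0) t).re ≤ ‖𝓕 (kin_win_g 0) t‖ := Complex.re_le_norm _
  unfold kin_win_θ
  nlinarith

theorem kin_win_corr (a : ℝ) :
    ∫ t, kin_win_θ t * cos (2 * π * (t * a)) = ∫ s, (64 * kin_win_f (s + a)) * (64 * kin_win_f s) := by
  have h := SchwartzMap.integral_inner_fourier_fourier (kin_win_g a) (kin_win_g 0)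
  have hL : ∀ t, inner ℂ (𝓕 (kin_win_g a) t) (𝓕 (kin_win_g 0) t) =
      Complex.exp (↑(-(2 * π * a * t)) * Complex.I) * ((‖𝓕 (kin_win_g 0) t‖ ^ 2 : ℝ) : ℂ) := by
    intro t
    rw [kin_win_shift, ← smul_eq_mul, inner_smul_left, inner_self_eq_norm_sq_to_K, ← Complex.exp_conj,
      map_mul, Complex.conj_ofReal, Complex.conj_I,
      show ((2 * π * a * t : ℝ) : ℂ) * -Complex.I = ((-(2 * π * a * t) : ℝ) : ℂ) * Complex.I by
        push_cast; ring]
    simp
  have hR : ∀ s, inner ℂ (kin_win_g a s) (kin_win_g 0 s) = ((kin_win_f (s + a) * kin_win_f s : ℝ) : ℂ) := by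
    intro s
    rw [kin_win_g_apply, kin_win_g_apply, add_zero]
    simp [mul_comm]
  simp only [hL, hR] at h
  rw [integral_complex_ofReal] at h
  have hint : Integrable fun t : ℝ =>
      Complex.exp (↑(-(2 * π * a * t)) * Complex.I) * ((‖𝓕 (kin_win_g 0) t‖ ^ 2 : ℝ) : ℂ) := by
    have h0 := kin_win_int_pow 0
    simp only [pow_zero, one_mul] at h0
    refine h0.ofReal.bdd_mul (c := 1) ?_ (Filter.Eventually.of_forall fun t => ?_)
    · exact (by fun_prop : Continuous fun t : ℝ =>
        Complex.exp (↑(-(2 * π * a * t)) * Complex.I)).aestronglyMeasurable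
    · rw [Complex.norm_exp_ofReal_mul_I]
  have h1 := integral_re hint
  simp only [RCLike.re_eq_complex_re] at h1
  rw [h, Complex.ofReal_re] at h1
  have e1 : ∀ t, kin_win_θ t * cos (2 * π * (t * a)) = 4096 *
      (Complex.exp (↑(-(2 * π * a * t)) * Complex.I) * ((‖𝓕 (kin_win_g 0) t‖ ^ 2 : ℝ) : ℂ)).re := by
    intro t
    rw [Complex.re_mul_ofReal, Complex.exp_ofReal_mul_I_re, cos_neg]
    unfold kin_win_θ
    rw [show 2 * π * (t * a) = 2 * π * a * t by ring]
    ring
  have e2 : ∀ s, (64 * kin_win_f (s + a)) * (64 * kin_win_f s) = 4096 * (kin_win_f (s + a) * kin_win_f s) :=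
    fun s => by ring
  simp only [e1, e2]
  rw [integral_const_mul, integral_const_mul, h1]

/-- **[WIN]** -/
theorem kin_win : KinWinC := by
  refine ⟨{ θ := kin_win_θ
            ψ := fun s => 64 * kin_win_f s
            θ_nonneg := fun t => by unfold kin_win_θ; positivity
            θ_even := kin_win_even
            θ_cont := ?_
            θ_int := ?_
            θ_low := kin_win_low
            ψ_cont := continuous_const.mul kin_win_f.continuous
            ψ_supp := fun s hs => by rw [kin_win_zero hs.le, mul_zero]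
            corr := kin_win_corr }⟩
  · unfold kin_win_θ
    exact continuous_const.mul ((𝓕 (kin_win_g 0)).continuous.norm.pow 2)
  · have h0 := kin_win_int_pow 0
    have h1 := kin_win_int_pow 1
    have h2 := kin_win_int_pow 2
    have h := (((h0.const_mul 4).add (h1.const_mul 4)).add h2).const_mul 4096
    refine h.congr (Filter.Eventually.of_forall fun t => ?_)
    show 4096 * (4 * (|t| ^ 0 * ‖𝓕 (kin_win_g 0) t‖ ^ 2) + 4 * (|t| ^ 1 * ‖𝓕 (kin_win_g 0) t‖ ^ 2) +
      |t| ^ 2 * ‖𝓕 (kin_win_g 0) t‖ ^ 2) = (2 + |t|) ^ 2 * kin_win_θ t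
    unfold kin_win_θ
    ring

end Claimed.Agent.R256
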