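import Claimed.Agent.R256.Kin.Glue
import Claimed.Agent.R256.Kin.Win
import Claimed.Agent.R256.Kin.Pair
import Claimed.Agent.R256.Kin.Sq
import Claimed.Agent.R256.Kin.Sel
import Claimed.Agent.R256.Kin.Ovl
import Claimed.Agent.R256.Kin.Cov
import Claimed.Agent.R256.Kin.Ker
import Claimed.Agent.R256.Kin.Sup
import Claimed.Agent.R256.Kin.Low

/-!
# Row 256, unit KIN: the kinetic estimate (kin), proved.     helper132.
-/

set_option autoImplicit false

namespace Claimed.Agent.R256

/-- **the kinetic estimate** (03-lower-dimensional.tex l.97, with `k+1 = log₂(2/δ)` instead of `δ^-ε`, boxes only for `R ∈ [δ,1]`) -/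
theorem kin_main : KinMainC :=
  kin_main_of kin_win kin_pair kin_sq (kin_ovl kin_sel) kin_sel (kin_sup (kin_ker kin_cov)) kin_low

end Claimed.Agent.R256
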