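import Mathlib
import Claimed.Agent.RW.FalcA

/-!
# Row 256, unit KIN: the kinetic estimate (kin) of 03-lower-dimensional.tex l.97, WITHOUT Guth-Wang-Zhang.     Architect: helper132.  Prefix `kin`.

Finite weighted family of parabolic rays `t ↦ (B + tX, Y + tX²)`, `|X| ≤ 1`, masses `m ≥ 0`.  If every box
`|X-x| ≤ R, |B-b| ≤ R, |Y-y-2x(B-b)| ≤ R²` (`R = 2^-j`, `j ≤ k`) has mass `≤ κR³`, then with `δ = 2^-k`
   `∑_{t ∈ δℤ ∩ [0,1]} ∑_{i,i'} m_i m_i' 1[|Q_i(t)-Q_i'(t)|_∞ ≤ δ]  ≤  C (k+1) δ κ ∑ m`          (`KinMainC`).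
(The paper has `δ^-ε` instead of `k+1` and asks the boxes for `R ≥ δ²`.  Sum of squares of cell masses `≤` the left side.)

PROOF (report 879 of the team data base).  ONLY ITERATED REAL INTEGRALS, as in `RW/FalcA`.
 `θ = |ψ^|²`, `ψ` a bump supported in `[-1/32,1/32]` (`KinWin`);  `Ψ(a) = ∫ ψ(s+a)ψ(s) ds = ∫ θ(t) cos(2πta) dt`.
 `kinP S ξ ζ = ∑_{i,i' ∈ S} m m' cos(φ_i-φ_i') Ψ(q_i-q_i')`, `φ_i = 2π(ξB_i+ζY_i)`, `q_i = ξX_i+ζX_i²`         (power spectrum, `≥ 0`)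
 `kinE S α β a = ∑_{i,i' ∈ S} m m' ∫ θ(t) K(ΔB+tΔX, ΔY+tΔX²) dt`, `K = faK (faG α β a)` sheared Gaussian    (physical form)
 [PAIR]  `∫∫ faG α β a · kinP S = kinE S α β a`                          (Fubini; `θ` even).
 [SQ]    `kinP S = ∫ ds (∑_{i∈S} m cos φ ψ(s+q))² + (∑ m sin φ ψ(s+q))²`.
 [OVL]   stopping rule: `kinLev ξ ζ k x` = first `j ≤ k` with `2^-j sup_I |q'| ≤ 1` on the dyadic interval `I ∋ x` of length `2^-j` (or `k`);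
         at most 9 classes `(j, ⌊x 2^j⌋)` meet `{x : |s + q(x)| ≤ 1/32}`.
 [SEL]   a class is a full dyadic fibre, and on it `faG δ² δ² 0 ≤ e^π faG (R²/9) (R⁴/9) (2x_I)`.
 [SUP]   `kinE (fibre) (R²/9) (R⁴/9) (2x_I) ≤ 9 e^(2π) (∫(2+|t|)²θ) κ · mass(fibre)`      (the only place where the boxes are used).
 [LOW]   left side of `KinMainC` `≤ e^(18π) δ kinE univ δ² δ² 0`.
 Glue (`Kin/Glue.lean`): [SQ]+[OVL]+[SEL] give the pointwise inequality of the spectra, [PAIR] integrates it.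
-/

set_option autoImplicit false

namespace Claimed.Agent.R256

open Finset MeasureTheory Real
open Claimed.Agent.RW (faG faK)

/-- a finite weighted family of parabolic rays `t ↦ (B + tX, Y + tX²)` -/
structure KinFam (ι : Type) where
  m : ι → ℝ
  X : ι → ℝ
  B : ι → ℝ
  Y : ι → ℝ
  m_nonneg : ∀ i, 0 ≤ m i
  X_le : ∀ i, |X i| ≤ 1

/-- all tilted boxes of size `R × R × R²` have mass `≤ κ R³` -/
def KinReg {ι : Type} [Fintype ι] (F : KinFam ι) (κ R : ℝ) : Prop :=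
  ∀ x b y : ℝ, ∑ i with (|F.X i - x| ≤ R ∧ |F.B i - b| ≤ R ∧ |F.Y i - y - 2 * x * (F.B i - b)| ≤ R ^ 2), F.m i ≤ κ * R ^ 3

/-- the rays `i`, `i'` are `δ`-close at time `t` -/
def kinCol {ι : Type} (F : KinFam ι) (δ t : ℝ) (i i' : ι) : Prop :=
  |F.B i - F.B i' + t * (F.X i - F.X i')| ≤ δ ∧ |F.Y i - F.Y i' + t * (F.X i ^ 2 - F.X i' ^ 2)| ≤ δ

noncomputable instance kinColDec {ι : Type} (F : KinFam ι) (δ t : ℝ) (i i' : ι) : Decidable (kinCol F δ t i i') :=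
  inferInstanceAs (Decidable (_ ∧ _))

/-- **the kinetic estimate** -/
def KinMainC : Prop :=
  ∃ C : ℝ, 0 < C ∧ ∀ (ι : Type) [Fintype ι] (F : KinFam ι) (κ : ℝ) (k : ℕ), 0 ≤ κ →
    (∀ j ≤ k, KinReg F κ ((1 / 2 : ℝ) ^ j)) →
    ∑ n ∈ range (2 ^ k + 1), ∑ i, ∑ i', (if kinCol F ((1 / 2 : ℝ) ^ k) (n * (1 / 2 : ℝ) ^ k) i i' then F.m i * F.m i' else 0) ≤
      C * (k + 1) * (1 / 2 : ℝ) ^ k * κ * ∑ i, F.m i

/-! ### the time window -/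

/-- time window `θ ≥ 0` whose cosine transform is the autocorrelation of a function `ψ` supported in `[-1/32,1/32]` -/
structure KinWin where
  θ : ℝ → ℝ
  ψ : ℝ → ℝ
  θ_nonneg : ∀ t, 0 ≤ θ t
  θ_even : ∀ t, θ (-t) = θ t
  θ_cont : Continuous θ
  θ_int : Integrable fun t : ℝ => (2 + |t|) ^ 2 * θ t
  θ_low : ∀ t, |t| ≤ 2 → 1 ≤ θ t
  ψ_cont : Continuous ψ
  ψ_supp : ∀ s, 1 / 32 < |s| → ψ s = 0
  corr : ∀ a : ℝ, ∫ t, θ t * cos (2 * π * (t * a)) = ∫ s, ψ (s + a) * ψ s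

/-- autocorrelation of `ψ` -/
noncomputable def kinPsi (W : KinWin) (a : ℝ) : ℝ := ∫ s, W.ψ (s + a) * W.ψ s

/-- the constant `∫ (2+|t|)² θ` -/
noncomputable def kinCθ (W : KinWin) : ℝ := ∫ t, (2 + |t|) ^ 2 * W.θ t

/-! ### spectrum and physical form -/

section forms
variable {ι : Type}

/-- phase `φ_i = 2π(ξB_i + ζY_i)` -/
noncomputable def kinPh (F : KinFam ι) (ξ ζ : ℝ) (i : ι) : ℝ := 2 * π * (ξ * F.B i + ζ * F.Y i)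

/-- time frequency `q_i = ξX_i + ζX_i²` -/
def kinQ (F : KinFam ι) (ξ ζ : ℝ) (i : ι) : ℝ := ξ * F.X i + ζ * F.X i ^ 2

/-- power spectrum of the sub-family `S` -/
noncomputable def kinP (F : KinFam ι) (W : KinWin) (S : Finset ι) (ξ ζ : ℝ) : ℝ :=
  ∑ i ∈ S, ∑ i' ∈ S, F.m i * F.m i' *
    (cos (kinPh F ξ ζ i - kinPh F ξ ζ i') * kinPsi W (kinQ F ξ ζ i - kinQ F ξ ζ i'))

/-- physical quadratic form of the sub-family `S` with the kernel `faK (faG α β a)` -/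
noncomputable def kinE (F : KinFam ι) (W : KinWin) (S : Finset ι) (α β a : ℝ) : ℝ :=
  ∑ i ∈ S, ∑ i' ∈ S, F.m i * F.m i' *
    ∫ t, W.θ t * faK (faG α β a) (F.B i - F.B i' + t * (F.X i - F.X i')) (F.Y i - F.Y i' + t * (F.X i ^ 2 - F.X i' ^ 2))

/-- cosine amplitude -/
noncomputable def kinAc (F : KinFam ι) (W : KinWin) (S : Finset ι) (ξ ζ s : ℝ) : ℝ :=
  ∑ i ∈ S, F.m i * cos (kinPh F ξ ζ i) * W.ψ (s + kinQ F ξ ζ i)

/-- sine amplitude -/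
noncomputable def kinAs (F : KinFam ι) (W : KinWin) (S : Finset ι) (ξ ζ s : ℝ) : ℝ :=
  ∑ i ∈ S, F.m i * sin (kinPh F ξ ζ i) * W.ψ (s + kinQ F ξ ζ i)

end forms

/-! ### the stopping rule -/

/-- index of the dyadic interval of length `2^-j` containing `x` -/
noncomputable def kinIdx (j : ℕ) (x : ℝ) : ℤ := ⌊x * 2 ^ j⌋

/-- `2^-j |q'| ≤ 1` at both end points of `[n 2^-j, (n+1) 2^-j]`, `q'(x) = ξ + 2ζx` -/
def kinCond (ξ ζ : ℝ) (j : ℕ) (n : ℤ) : Prop :=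
  (1 / 2 : ℝ) ^ j * |ξ + 2 * ζ * (n * (1 / 2 : ℝ) ^ j)| ≤ 1 ∧ (1 / 2 : ℝ) ^ j * |ξ + 2 * ζ * ((n + 1) * (1 / 2 : ℝ) ^ j)| ≤ 1

/-- stopping level of `x` -/
noncomputable def kinLev (ξ ζ : ℝ) (k : ℕ) (x : ℝ) : ℕ := sInf {j : ℕ | j = k ∨ kinCond ξ ζ j (kinIdx j x)}

/-- stopping class of `x` -/
noncomputable def kinCls (ξ ζ : ℝ) (k : ℕ) (x : ℝ) : ℕ × ℤ := (kinLev ξ ζ k x, kinIdx (kinLev ξ ζ k x) x)

/-- dyadic fibre -/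
noncomputable def kinS {ι : Type} [Fintype ι] (F : KinFam ι) (j : ℕ) (n : ℤ) : Finset ι := univ.filter fun i => kinIdx j (F.X i) = n

/-! ### contracts -/

/-- [WIN] -/
def KinWinC : Prop := Nonempty KinWin

/-- [PAIR] -/
def KinPairC : Prop :=
  ∀ (W : KinWin) (α β : ℝ), 0 < α → 0 < β → ∀ a dB dY dX dS : ℝ,
    (∀ ζ, Integrable fun ξ => faG α β a ξ ζ * (cos (2 * π * (ξ * dB + ζ * dY)) * kinPsi W (ξ * dX + ζ * dS))) ∧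
    (Integrable fun ζ => ∫ ξ, faG α β a ξ ζ * (cos (2 * π * (ξ * dB + ζ * dY)) * kinPsi W (ξ * dX + ζ * dS))) ∧
    ∫ ζ, ∫ ξ, faG α β a ξ ζ * (cos (2 * π * (ξ * dB + ζ * dY)) * kinPsi W (ξ * dX + ζ * dS)) =
      ∫ t, W.θ t * faK (faG α β a) (dB + t * dX) (dY + t * dS)

/-- [SQ] -/
def KinSqC : Prop :=
  ∀ (ι : Type) (F : KinFam ι) (W : KinWin) (S : Finset ι) (ξ ζ : ℝ),
    (Integrable fun s => kinAc F W S ξ ζ s ^ 2 + kinAs F W S ξ ζ s ^ 2) ∧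
    kinP F W S ξ ζ = ∫ s, (kinAc F W S ξ ζ s ^ 2 + kinAs F W S ξ ζ s ^ 2)

/-- [OVL] -/
def KinOvlC : Prop :=
  ∀ (ξ ζ : ℝ) (k : ℕ) (s : ℝ) (T : Finset ℝ), (∀ x ∈ T, |x| ≤ 1 ∧ |s + (ξ * x + ζ * x ^ 2)| ≤ 1 / 32) →
    (T.image (kinCls ξ ζ k)).card ≤ 9

/-- [SEL] -/
def KinSelC : Prop :=
  ∀ (ξ ζ : ℝ) (k : ℕ) (x : ℝ), |x| ≤ 1 →
    kinLev ξ ζ k x ≤ k ∧
    (∀ x' : ℝ, kinIdx (kinLev ξ ζ k x) x' = kinIdx (kinLev ξ ζ k x) x → kinCls ξ ζ k x' = kinCls ξ ζ k x) ∧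
    faG (((1 / 2 : ℝ) ^ k) ^ 2) (((1 / 2 : ℝ) ^ k) ^ 2) 0 ξ ζ ≤
      exp π * faG (((1 / 2 : ℝ) ^ kinLev ξ ζ k x) ^ 2 / 9) (((1 / 2 : ℝ) ^ kinLev ξ ζ k x) ^ 4 / 9)
        (2 * (kinIdx (kinLev ξ ζ k x) x * (1 / 2 : ℝ) ^ kinLev ξ ζ k x)) ξ ζ

/-- [SUP] -/
def KinSupC : Prop :=
  ∀ (W : KinWin) (ι : Type) [Fintype ι] (F : KinFam ι) (κ : ℝ) (j : ℕ) (n : ℤ), 0 ≤ κ → KinReg F κ ((1 / 2 : ℝ) ^ j) →
    kinE F W (kinS F j n) (((1 / 2 : ℝ) ^ j) ^ 2 / 9) (((1 / 2 : ℝ) ^ j) ^ 4 / 9) (2 * (n * (1 / 2 : ℝ) ^ j)) ≤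
      9 * exp (2 * π) * kinCθ W * κ * ∑ i ∈ kinS F j n, F.m i

/-- [LOW] -/
def KinLowC : Prop :=
  ∀ (W : KinWin) (ι : Type) [Fintype ι] (F : KinFam ι) (k : ℕ),
    ∑ n ∈ range (2 ^ k + 1), ∑ i, ∑ i', (if kinCol F ((1 / 2 : ℝ) ^ k) (n * (1 / 2 : ℝ) ^ k) i i' then F.m i * F.m i' else 0) ≤
      exp (18 * π) * (1 / 2 : ℝ) ^ k * kinE F W univ (((1 / 2 : ℝ) ^ k) ^ 2) (((1 / 2 : ℝ) ^ k) ^ 2) 0

/-- generates the equation lemmas of the definitions above in this file (rule 6: unique names) -/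
theorem kin_defs_eqns_cite : True := by
  have := @KinReg.eq_1
  have := @kinCol.eq_1
  have := @KinMainC.eq_1
  have := @kinPsi.eq_1
  have := @kinCθ.eq_1
  have := @kinPh.eq_1
  have := @kinQ.eq_1
  have := @kinP.eq_1
  have := @kinE.eq_1
  have := @kinAc.eq_1
  have := @kinAs.eq_1
  have := @kinIdx.eq_1
  have := @kinCond.eq_1
  have := @kinLev.eq_1
  have := @kinCls.eq_1
  have := @kinS.eq_1
  have := @KinWinC.eq_1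
  have := @KinPairC.eq_1
  have := @KinSqC.eq_1
  have := @KinOvlC.eq_1
  have := @KinSelC.eq_1
  have := @KinSupC.eq_1
  have := @KinLowC.eq_1
  trivial

end Claimed.Agent.R256
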