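import Claimed.Agent.R256.Kin.Defs

/-!
# Row 256, unit KIN: glue.     helper132.  Prefix `kin`.
`kin_main_of`: the seven contracts of `Kin/Defs.lean` give `KinMainC`.
-/

set_option autoImplicit false

namespace Claimed.Agent.R256

open Finset MeasureTheory Real
open Claimed.Agent.RW (faG faK)

section
variable {ι : Type}

/-- [PAIR] summed over the pairs of `S` -/
theorem kin_form_eq (hP : KinPairC) (F : KinFam ι) (W : KinWin) (S : Finset ι) {α β : ℝ} (hα : 0 < α) (hβ : 0 < β) (a : ℝ) :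
    (∀ ζ, Integrable fun ξ => faG α β a ξ ζ * kinP F W S ξ ζ) ∧ (Integrable fun ζ => ∫ ξ, faG α β a ξ ζ * kinP F W S ξ ζ) ∧
      ∫ ζ, ∫ ξ, faG α β a ξ ζ * kinP F W S ξ ζ = kinE F W S α β a := by
  have h1 : ∀ ξ ζ : ℝ, faG α β a ξ ζ * kinP F W S ξ ζ = ∑ i ∈ S, ∑ i' ∈ S, F.m i * F.m i' *
      (faG α β a ξ ζ * (cos (2 * π * (ξ * (F.B i - F.B i') + ζ * (F.Y i - F.Y i'))) *
        kinPsi W (ξ * (F.X i - F.X i') + ζ * (F.X i ^ 2 - F.X i' ^ 2)))) := by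
    intro ξ ζ
    unfold kinP
    rw [Finset.mul_sum]
    refine Finset.sum_congr rfl fun i _ => ?_
    rw [Finset.mul_sum]
    refine Finset.sum_congr rfl fun i' _ => ?_
    have e1 : kinPh F ξ ζ i - kinPh F ξ ζ i' = 2 * π * (ξ * (F.B i - F.B i') + ζ * (F.Y i - F.Y i')) := by
      unfold kinPh; ring
    have e2 : kinQ F ξ ζ i - kinQ F ξ ζ i' = ξ * (F.X i - F.X i') + ζ * (F.X i ^ 2 - F.X i' ^ 2) := by
      unfold kinQ; ring
    rw [e1, e2]
    ring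
  have hp := fun i i' : ι => hP W α β hα hβ a (F.B i - F.B i') (F.Y i - F.Y i') (F.X i - F.X i') (F.X i ^ 2 - F.X i' ^ 2)
  have hi1 : ∀ (ζ : ℝ) (i i' : ι), Integrable fun ξ => F.m i * F.m i' *
      (faG α β a ξ ζ * (cos (2 * π * (ξ * (F.B i - F.B i') + ζ * (F.Y i - F.Y i'))) *
        kinPsi W (ξ * (F.X i - F.X i') + ζ * (F.X i ^ 2 - F.X i' ^ 2)))) :=
    fun ζ i i' => ((hp i i').1 ζ).const_mul _
  have h2 : ∀ ζ : ℝ, ∫ ξ, ∑ i ∈ S, ∑ i' ∈ S, F.m i * F.m i' *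
      (faG α β a ξ ζ * (cos (2 * π * (ξ * (F.B i - F.B i') + ζ * (F.Y i - F.Y i'))) *
        kinPsi W (ξ * (F.X i - F.X i') + ζ * (F.X i ^ 2 - F.X i' ^ 2)))) =
      ∑ i ∈ S, ∑ i' ∈ S, F.m i * F.m i' *
        ∫ ξ, (faG α β a ξ ζ * (cos (2 * π * (ξ * (F.B i - F.B i') + ζ * (F.Y i - F.Y i'))) *
        kinPsi W (ξ * (F.X i - F.X i') + ζ * (F.X i ^ 2 - F.X i' ^ 2)))) := by
    intro ζ
    rw [integral_finsetSum _ fun i _ => integrable_finsetSum _ fun i' _ => hi1 ζ i i']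
    refine Finset.sum_congr rfl fun i _ => ?_
    rw [integral_finsetSum _ fun i' _ => hi1 ζ i i']
    exact Finset.sum_congr rfl fun i' _ => integral_const_mul _ _
  have hi2 : ∀ i i' : ι, Integrable fun ζ => F.m i * F.m i' *
      ∫ ξ, (faG α β a ξ ζ * (cos (2 * π * (ξ * (F.B i - F.B i') + ζ * (F.Y i - F.Y i'))) *
        kinPsi W (ξ * (F.X i - F.X i') + ζ * (F.X i ^ 2 - F.X i' ^ 2)))) :=
    fun i i' => ((hp i i').2.1).const_mul _
  simp only [h1, h2]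
  refine ⟨fun ζ => integrable_finsetSum _ fun i _ => integrable_finsetSum _ fun i' _ => hi1 ζ i i',
    integrable_finsetSum _ fun i _ => integrable_finsetSum _ fun i' _ => hi2 i i', ?_⟩
  rw [integral_finsetSum _ fun i _ => integrable_finsetSum _ fun i' _ => hi2 i i']
  unfold kinE
  refine Finset.sum_congr rfl fun i _ => ?_
  rw [integral_finsetSum _ fun i' _ => hi2 i i']
  refine Finset.sum_congr rfl fun i' _ => ?_
  rw [integral_const_mul, (hp i i').2.2]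

theorem kin_P_nonneg (hS : KinSqC) (F : KinFam ι) (W : KinWin) (S : Finset ι) (ξ ζ : ℝ) : 0 ≤ kinP F W S ξ ζ := by
  rw [(hS ι F W S ξ ζ).2]
  exact integral_nonneg fun s => by positivity

end

section
variable {ι : Type} [Fintype ι]

/-- square of a sum with few non zero blocks -/
theorem kin_block_sq {γ : Type} [DecidableEq γ] (c : ι → γ) (f : ι → ℝ) (N : ℕ)
    (hN : ((univ.filter fun i => f i ≠ 0).image c).card ≤ N) :
    (∑ i, f i) ^ 2 ≤ N * ∑ g ∈ univ.image c, (∑ i with c i = g, f i) ^ 2 := by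
  classical
  set G := univ.image c with hG
  set G' := (univ.filter fun i => f i ≠ 0).image c with hG'
  have hsub : G' ⊆ G := Finset.image_subset_image (Finset.filter_subset _ _)
  have h1 : ∑ i, f i = ∑ g ∈ G, ∑ i with c i = g, f i :=
    (Finset.sum_fiberwise_of_maps_to (fun i _ => Finset.mem_image_of_mem c (Finset.mem_univ i)) f).symm
  have h2 : ∑ g ∈ G, ∑ i with c i = g, f i = ∑ g ∈ G', ∑ i with c i = g, f i := by
    refine (Finset.sum_subset hsub fun g _ hg => ?_).symm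
    refine Finset.sum_eq_zero fun i hi => ?_
    by_contra hne
    apply hg
    rw [Finset.mem_filter] at hi
    exact Finset.mem_image.2 ⟨i, by simp [hne], hi.2⟩
  rw [h1, h2]
  calc (∑ g ∈ G', ∑ i with c i = g, f i) ^ 2 ≤ (G'.card : ℝ) * ∑ g ∈ G', (∑ i with c i = g, f i) ^ 2 :=
        sq_sum_le_card_mul_sum_sq
    _ ≤ (N : ℝ) * ∑ g ∈ G, (∑ i with c i = g, f i) ^ 2 := by
        refine mul_le_mul (by exact_mod_cast hN) ?_ (Finset.sum_nonneg fun _ _ => sq_nonneg _) (by positivity)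
        exact Finset.sum_le_sum_of_subset_of_nonneg hsub fun _ _ _ => sq_nonneg _

/-- decoupling of the spectrum along the stopping classes -/
theorem kin_dec (hS : KinSqC) (hO : KinOvlC) (F : KinFam ι) (W : KinWin) (k : ℕ) (ξ ζ : ℝ) :
    kinP F W univ ξ ζ ≤ 9 * ∑ g ∈ univ.image (fun i => kinCls ξ ζ k (F.X i)),
      kinP F W (univ.filter fun i => kinCls ξ ζ k (F.X i) = g) ξ ζ := by
  classical
  set c : ι → ℕ × ℤ := fun i => kinCls ξ ζ k (F.X i) with hc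
  have hcard : ∀ (s : ℝ) (u : ι → ℝ), ((univ.filter fun i => u i * W.ψ (s + kinQ F ξ ζ i) ≠ 0).image c).card ≤ 9 := by
    intro s u
    have h := hO ξ ζ k s ((univ.filter fun i => u i * W.ψ (s + kinQ F ξ ζ i) ≠ 0).image F.X) ?_
    · rwa [Finset.image_image] at h
    · intro x hx
      obtain ⟨i, hi, rfl⟩ := Finset.mem_image.1 hx
      refine ⟨F.X_le i, ?_⟩
      by_contra hlt
      rw [Finset.mem_filter] at hi
      apply hi.2
      have := W.ψ_supp (s + kinQ F ξ ζ i) (by unfold kinQ; exact not_le.1 hlt)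
      rw [this, mul_zero]
  have hpt : ∀ s, kinAc F W univ ξ ζ s ^ 2 + kinAs F W univ ξ ζ s ^ 2 ≤
      9 * ∑ g ∈ univ.image c, (kinAc F W (univ.filter fun i => c i = g) ξ ζ s ^ 2 + kinAs F W (univ.filter fun i => c i = g) ξ ζ s ^ 2) := by
    intro s
    have a1 := kin_block_sq c (fun i => F.m i * cos (kinPh F ξ ζ i) * W.ψ (s + kinQ F ξ ζ i)) 9 (hcard s _)
    have a2 := kin_block_sq c (fun i => F.m i * sin (kinPh F ξ ζ i) * W.ψ (s + kinQ F ξ ζ i)) 9 (hcard s _)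
    rw [Finset.sum_add_distrib, mul_add]
    push_cast at a1 a2
    exact add_le_add a1 a2
  rw [(hS ι F W univ ξ ζ).2]
  have hint : ∀ g ∈ univ.image c, Integrable fun s => (kinAc F W (univ.filter fun i => c i = g) ξ ζ s ^ 2 + kinAs F W (univ.filter fun i => c i = g) ξ ζ s ^ 2) :=
    fun g _ => (hS ι F W _ ξ ζ).1
  calc ∫ s, (kinAc F W univ ξ ζ s ^ 2 + kinAs F W univ ξ ζ s ^ 2)
      ≤ ∫ s, 9 * ∑ g ∈ univ.image c, (kinAc F W (univ.filter fun i => c i = g) ξ ζ s ^ 2 + kinAs F W (univ.filter fun i => c i = g) ξ ζ s ^ 2) :=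
        integral_mono (hS ι F W univ ξ ζ).1 ((integrable_finsetSum _ hint).const_mul _) hpt
    _ = 9 * ∑ g ∈ univ.image c, kinP F W (univ.filter fun i => c i = g) ξ ζ := by
        rw [integral_const_mul, integral_finsetSum _ hint]
        congr 1
        exact Finset.sum_congr rfl fun g _ => ((hS ι F W _ ξ ζ).2).symm

/-- the weight of the dyadic interval `(j,n)` -/
noncomputable def kinWt (g : ℕ × ℤ) (ξ ζ : ℝ) : ℝ :=
  faG (((1 / 2 : ℝ) ^ g.1) ^ 2 / 9) (((1 / 2 : ℝ) ^ g.1) ^ 4 / 9) (2 * (g.2 * (1 / 2 : ℝ) ^ g.1)) ξ ζ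

/-- all dyadic intervals of levels `≤ k` (with room) -/
noncomputable def kinAll (k : ℕ) : Finset (ℕ × ℤ) := range (k + 1) ×ˢ Finset.Icc (-(2 : ℤ) ^ k) (2 ^ k)

/-- generates the equation lemmas of the definitions above in this file (rule 6: unique names) -/
theorem kin_glue_eqns_cite : True := by
  have := @kinWt.eq_1
  have := @kinAll.eq_1
  trivial

theorem kin_idx_mem {j k : ℕ} (hjk : j ≤ k) {x : ℝ} (hx : |x| ≤ 1) : kinIdx j x ∈ Finset.Icc (-(2 : ℤ) ^ k) (2 ^ k) := by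
  have h2 : (2 : ℝ) ^ j ≤ 2 ^ k := pow_le_pow_right₀ (by norm_num) hjk
  have hp : (0 : ℝ) < 2 ^ j := by positivity
  obtain ⟨hx1, hx2⟩ := abs_le.1 hx
  rw [Finset.mem_Icc]
  unfold kinIdx
  constructor
  · rw [Int.le_floor]
    push_cast
    nlinarith
  · have h3 : ((⌊x * 2 ^ j⌋ : ℤ) : ℝ) ≤ x * 2 ^ j := Int.floor_le _
    have h4 : ((⌊x * 2 ^ j⌋ : ℤ) : ℝ) ≤ ((2 ^ k : ℤ) : ℝ) := by
      push_cast
      nlinarith
    exact_mod_cast h4

theorem kin_wt_nonneg (g : ℕ × ℤ) (ξ ζ : ℝ) : 0 ≤ kinWt g ξ ζ := by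
  unfold kinWt faG
  positivity

/-- pointwise inequality of the weighted spectra -/
theorem kin_pw (hS : KinSqC) (hO : KinOvlC) (hL : KinSelC) (F : KinFam ι) (W : KinWin) (k : ℕ) (ξ ζ : ℝ) :
    faG (((1 / 2 : ℝ) ^ k) ^ 2) (((1 / 2 : ℝ) ^ k) ^ 2) 0 ξ ζ * kinP F W univ ξ ζ ≤
      ∑ g ∈ kinAll k, 9 * exp π * (kinWt g ξ ζ * kinP F W (kinS F g.1 g.2) ξ ζ) := by
  classical
  set w0 := faG (((1 / 2 : ℝ) ^ k) ^ 2) (((1 / 2 : ℝ) ^ k) ^ 2) 0 ξ ζ with hw0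
  have hw0n : 0 ≤ w0 := by
    rw [hw0]; unfold faG; positivity
  have h1 := mul_le_mul_of_nonneg_left (kin_dec hS hO F W k ξ ζ) hw0n
  refine le_trans h1 ?_
  have h2 : ∀ g ∈ univ.image (fun i => kinCls ξ ζ k (F.X i)),
      g ∈ kinAll k ∧ w0 * kinP F W (univ.filter fun i => kinCls ξ ζ k (F.X i) = g) ξ ζ ≤
        exp π * (kinWt g ξ ζ * kinP F W (kinS F g.1 g.2) ξ ζ) := by
    intro g hg
    obtain ⟨i0, -, rfl⟩ := Finset.mem_image.1 hg
    obtain ⟨l1, l2, l3⟩ := hL ξ ζ k (F.X i0) (F.X_le i0)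
    have hset : (univ.filter fun i => kinCls ξ ζ k (F.X i) = kinCls ξ ζ k (F.X i0)) =
        kinS F (kinCls ξ ζ k (F.X i0)).1 (kinCls ξ ζ k (F.X i0)).2 := by
      ext i
      simp only [kinS, Finset.mem_filter, Finset.mem_univ, true_and]
      constructor
      · intro h
        have e1 : kinLev ξ ζ k (F.X i) = kinLev ξ ζ k (F.X i0) := congrArg Prod.fst h
        have e2 : kinIdx (kinLev ξ ζ k (F.X i)) (F.X i) = kinIdx (kinLev ξ ζ k (F.X i0)) (F.X i0) := congrArg Prod.snd h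
        rw [e1] at e2
        exact e2
      · intro h
        exact l2 _ h
    refine ⟨?_, ?_⟩
    · unfold kinAll
      rw [Finset.mem_product]
      exact ⟨Finset.mem_range.2 (Nat.lt_succ_of_le l1), kin_idx_mem l1 (F.X_le i0)⟩
    · rw [hset, ← mul_assoc]
      exact mul_le_mul_of_nonneg_right l3 (kin_P_nonneg hS F W _ ξ ζ)
  calc w0 * (9 * ∑ g ∈ univ.image (fun i => kinCls ξ ζ k (F.X i)), kinP F W (univ.filter fun i => kinCls ξ ζ k (F.X i) = g) ξ ζ)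
      = ∑ g ∈ univ.image (fun i => kinCls ξ ζ k (F.X i)), 9 * (w0 * kinP F W (univ.filter fun i => kinCls ξ ζ k (F.X i) = g) ξ ζ) := by
        rw [Finset.mul_sum, Finset.mul_sum]
        exact Finset.sum_congr rfl fun g _ => by ring
    _ ≤ ∑ g ∈ univ.image (fun i => kinCls ξ ζ k (F.X i)), 9 * exp π * (kinWt g ξ ζ * kinP F W (kinS F g.1 g.2) ξ ζ) := by
        refine Finset.sum_le_sum fun g hg => ?_
        have := (h2 g hg).2
        nlinarith
    _ ≤ _ := by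
        refine Finset.sum_le_sum_of_subset_of_nonneg (fun g hg => (h2 g hg).1) fun g _ _ => ?_
        have := kin_wt_nonneg g ξ ζ
        have := kin_P_nonneg hS F W (kinS F g.1 g.2) ξ ζ
        positivity

/-- the integrated inequality -/
theorem kin_E_le (hP : KinPairC) (hS : KinSqC) (hO : KinOvlC) (hL : KinSelC) (F : KinFam ι) (W : KinWin) (k : ℕ) :
    kinE F W univ (((1 / 2 : ℝ) ^ k) ^ 2) (((1 / 2 : ℝ) ^ k) ^ 2) 0 ≤
      ∑ g ∈ kinAll k, 9 * exp π * kinE F W (kinS F g.1 g.2) (((1 / 2 : ℝ) ^ g.1) ^ 2 / 9) (((1 / 2 : ℝ) ^ g.1) ^ 4 / 9) (2 * (g.2 * (1 / 2 : ℝ) ^ g.1)) := by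
  have hδ : (0 : ℝ) < ((1 / 2 : ℝ) ^ k) ^ 2 := by positivity
  obtain ⟨a1, a2, a3⟩ := kin_form_eq hP F W univ hδ hδ 0
  have hb := fun g : ℕ × ℤ => kin_form_eq hP F W (kinS F g.1 g.2) (α := ((1 / 2 : ℝ) ^ g.1) ^ 2 / 9) (β := ((1 / 2 : ℝ) ^ g.1) ^ 4 / 9)
    (by positivity) (by positivity) (2 * (g.2 * (1 / 2 : ℝ) ^ g.1))
  have i1 : ∀ (ζ : ℝ) (g : ℕ × ℤ), Integrable fun ξ => 9 * exp π * (kinWt g ξ ζ * kinP F W (kinS F g.1 g.2) ξ ζ) :=
    fun ζ g => ((hb g).1 ζ).const_mul _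
  have e1 : ∀ ζ : ℝ, ∫ ξ, ∑ g ∈ kinAll k, 9 * exp π * (kinWt g ξ ζ * kinP F W (kinS F g.1 g.2) ξ ζ) =
      ∑ g ∈ kinAll k, 9 * exp π * ∫ ξ, kinWt g ξ ζ * kinP F W (kinS F g.1 g.2) ξ ζ := by
    intro ζ
    rw [integral_finsetSum _ fun g _ => i1 ζ g]
    exact Finset.sum_congr rfl fun g _ => integral_const_mul _ _
  have i2 : ∀ g : ℕ × ℤ, Integrable fun ζ => 9 * exp π * ∫ ξ, kinWt g ξ ζ * kinP F W (kinS F g.1 g.2) ξ ζ :=
    fun g => ((hb g).2.1).const_mul _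
  rw [← a3]
  calc ∫ ζ, ∫ ξ, faG (((1 / 2 : ℝ) ^ k) ^ 2) (((1 / 2 : ℝ) ^ k) ^ 2) 0 ξ ζ * kinP F W univ ξ ζ
      ≤ ∫ ζ, ∫ ξ, ∑ g ∈ kinAll k, 9 * exp π * (kinWt g ξ ζ * kinP F W (kinS F g.1 g.2) ξ ζ) := by
        refine integral_mono a2 ?_ fun ζ => ?_
        · simp only [e1]
          exact integrable_finsetSum _ fun g _ => i2 g
        · exact integral_mono (a1 ζ) (integrable_finsetSum _ fun g _ => i1 ζ g) fun ξ => kin_pw hS hO hL F W k ξ ζ
    _ = _ := by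
        simp only [e1]
        rw [integral_finsetSum _ fun g _ => i2 g]
        refine Finset.sum_congr rfl fun g _ => ?_
        rw [integral_const_mul]
        congr 1
        exact (hb g).2.2

theorem kin_mass_sum (F : KinFam ι) {j k : ℕ} (hjk : j ≤ k) :
    ∑ n ∈ Finset.Icc (-(2 : ℤ) ^ k) (2 ^ k), ∑ i ∈ kinS F j n, F.m i = ∑ i, F.m i := by
  unfold kinS
  exact Finset.sum_fiberwise_of_maps_to (fun i _ => kin_idx_mem hjk (F.X_le i)) F.m

end

theorem kin_Cθ_nonneg (W : KinWin) : 0 ≤ kinCθ W :=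
  integral_nonneg fun t => mul_nonneg (by positivity) (W.θ_nonneg t)

/-- **glue**: the contracts give the kinetic estimate -/
theorem kin_main_of (hW : KinWinC) (hP : KinPairC) (hS : KinSqC) (hO : KinOvlC) (hL : KinSelC) (hU : KinSupC) (hB : KinLowC) :
    KinMainC := by
  obtain ⟨W⟩ := hW
  have hC := kin_Cθ_nonneg W
  refine ⟨exp (18 * π) * (81 * exp π * exp (2 * π) * (kinCθ W + 1)), by positivity, ?_⟩
  intro ι _ F κ k hκ hreg
  have hm : 0 ≤ ∑ i, F.m i := Finset.sum_nonneg fun i _ => F.m_nonneg i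
  have h1 := hB W ι F k
  have h2 := kin_E_le hP hS hO hL F W k
  have h3 : ∑ g ∈ kinAll k, 9 * exp π * kinE F W (kinS F g.1 g.2) (((1 / 2 : ℝ) ^ g.1) ^ 2 / 9) (((1 / 2 : ℝ) ^ g.1) ^ 4 / 9) (2 * (g.2 * (1 / 2 : ℝ) ^ g.1)) ≤
      ∑ g ∈ kinAll k, 9 * exp π * (9 * exp (2 * π) * kinCθ W * κ * ∑ i ∈ kinS F g.1 g.2, F.m i) := by
    refine Finset.sum_le_sum fun g hg => ?_
    unfold kinAll at hg
    rw [Finset.mem_product, Finset.mem_range] at hg
    exact mul_le_mul_of_nonneg_left (hU W ι F κ g.1 g.2 hκ (hreg g.1 (Nat.lt_succ_iff.1 hg.1))) (by positivity)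
  have h4 : ∑ g ∈ kinAll k, 9 * exp π * (9 * exp (2 * π) * kinCθ W * κ * ∑ i ∈ kinS F g.1 g.2, F.m i) =
      81 * exp π * exp (2 * π) * kinCθ W * κ * ((k + 1) * ∑ i, F.m i) := by
    unfold kinAll
    rw [Finset.sum_product]
    have : ∀ j ∈ range (k + 1), ∑ n ∈ Finset.Icc (-(2 : ℤ) ^ k) (2 ^ k), 9 * exp π * (9 * exp (2 * π) * kinCθ W * κ * ∑ i ∈ kinS F j n, F.m i) =
        81 * exp π * exp (2 * π) * kinCθ W * κ * ∑ i, F.m i := by
      intro j hj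
      rw [← kin_mass_sum F (Nat.lt_succ_iff.1 (Finset.mem_range.1 hj)), Finset.mul_sum]
      exact Finset.sum_congr rfl fun n _ => by ring
    rw [Finset.sum_congr rfl this, Finset.sum_const, Finset.card_range, nsmul_eq_mul]
    push_cast
    ring
  have h5 : kinE F W univ (((1 / 2 : ℝ) ^ k) ^ 2) (((1 / 2 : ℝ) ^ k) ^ 2) 0 ≤ 81 * exp π * exp (2 * π) * kinCθ W * κ * ((k + 1) * ∑ i, F.m i) :=
    (h2.trans h3).trans_eq h4
  have h6 : exp (18 * π) * (1 / 2 : ℝ) ^ k * kinE F W univ (((1 / 2 : ℝ) ^ k) ^ 2) (((1 / 2 : ℝ) ^ k) ^ 2) 0 ≤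
      exp (18 * π) * (1 / 2 : ℝ) ^ k * (81 * exp π * exp (2 * π) * kinCθ W * κ * ((k + 1) * ∑ i, F.m i)) :=
    mul_le_mul_of_nonneg_left h5 (by positivity)
  refine (h1.trans h6).trans ?_
  have h7 : 0 ≤ exp (18 * π) * (1 / 2 : ℝ) ^ k * (81 * exp π * exp (2 * π) * κ * ((k + 1) * ∑ i, F.m i)) := by positivity
  nlinarith

end Claimed.Agent.R256
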