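import Claimed.Agent.R256.Kin.Meas

/-!
# Row 256, folder Kin, unit KIN-M, leaf [M1]: covering of a slightly enlarged tilted box by 20 tilted boxes.     (helper289; plan: header of `Kin/Meas.lean`.)  Prefix `kinM`.
-/

set_option autoImplicit false

namespace Claimed.Agent.R256

open Finset MeasureTheory

/-- a number of size `≤ R + h`, `h ≤ R`, is within `R` of `R` or of `-R` -/
theorem kinM_pm {a R h : ℝ} (hh : h ≤ R) (ha : |a| ≤ R + h) : ∃ s : ℤ, (s = -1 ∨ s = 1) ∧ |a - s * R| ≤ R := by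
  obtain ⟨a1, a2⟩ := abs_le.1 ha
  by_cases h0 : 0 ≤ a
  · refine ⟨1, Or.inr rfl, ?_⟩
    rw [abs_le]
    push_cast
    constructor <;> linarith
  · rw [not_le] at h0
    refine ⟨-1, Or.inl rfl, ?_⟩
    rw [abs_le]
    push_cast
    constructor <;> linarith

/-- a number of size `≤ 5 r` is within `r` of one of `-4r, -2r, 0, 2r, 4r` -/
theorem kinM_five {T r : ℝ} (hT : |T| ≤ 5 * r) : ∃ v : ℤ, v ∈ ({-4, -2, 0, 2, 4} : Finset ℤ) ∧ |T + v * r| ≤ r := by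
  obtain ⟨a1, a2⟩ := abs_le.1 hT
  by_cases c1 : T ≤ -3 * r
  · refine ⟨4, by decide, ?_⟩
    rw [abs_le]
    push_cast
    constructor <;> linarith
  rw [not_le] at c1
  by_cases c2 : T ≤ -r
  · refine ⟨2, by decide, ?_⟩
    rw [abs_le]
    push_cast
    constructor <;> linarith
  rw [not_le] at c2
  by_cases c3 : T ≤ r
  · refine ⟨0, by decide, ?_⟩
    rw [abs_le]
    push_cast
    constructor <;> linarith
  rw [not_le] at c3
  by_cases c4 : T ≤ 3 * r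
  · refine ⟨-2, by decide, ?_⟩
    rw [abs_le]
    push_cast
    constructor <;> linarith
  rw [not_le] at c4
  refine ⟨-4, by decide, ?_⟩
  rw [abs_le]
  push_cast
  constructor <;> linarith

/-- the index set of the 20 boxes -/
def kinMIdx : Finset (ℤ × ℤ × ℤ) := ({-1, 1} : Finset ℤ) ×ˢ ({-1, 1} : Finset ℤ) ×ˢ ({-4, -2, 0, 2, 4} : Finset ℤ)

theorem kinM_idx_card : kinMIdx.card = 20 := by decide

/-- the covering, as an inclusion of sets -/
theorem kinM_cov_sub {Ω : Type} (X B Y : Ω → ℝ) {R h : ℝ} (hR : 0 < R) (hR1 : R ≤ 1) (hh : 0 ≤ h) (h5 : 5 * h ≤ R ^ 2) (x b y : ℝ) :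
    kinMBox X B Y x b y (R + h) (R + h) (R ^ 2 + 5 * h) ⊆
      ⋃ p ∈ kinMIdx, kinMBox X B Y (x + p.1 * R) (b + p.2.1 * R) (y + 2 * (x + p.1 * R) * (p.2.1 * R) - p.2.2 * R ^ 2) R R (R ^ 2) := by
  have hRR : R ^ 2 ≤ R := by nlinarith
  have hhR : h ≤ R := by linarith
  rintro ω ⟨h1, h2, h3⟩
  obtain ⟨s, hs, hs1⟩ := kinM_pm hhR h1
  obtain ⟨u, hu, hu1⟩ := kinM_pm hhR h2
  have hsabs : |(s : ℝ)| = 1 := by
    rcases hs with rfl | rfl <;> simp
  have hT : |(Y ω - y - 2 * x * (B ω - b)) - 2 * s * R * (B ω - b)| ≤ 5 * R ^ 2 := by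
    have e1 : |2 * (s : ℝ) * R * (B ω - b)| ≤ 2 * R * (R + h) := by
      rw [abs_mul, abs_mul, abs_mul, hsabs, abs_of_pos hR, abs_of_pos (two_pos : (0 : ℝ) < 2), mul_one]
      exact mul_le_mul_of_nonneg_left h2 (by positivity)
    have e2 : R * h ≤ 1 * h := mul_le_mul_of_nonneg_right hR1 hh
    calc |(Y ω - y - 2 * x * (B ω - b)) - 2 * s * R * (B ω - b)| ≤ |Y ω - y - 2 * x * (B ω - b)| + |2 * (s : ℝ) * R * (B ω - b)| := abs_sub _ _
      _ ≤ (R ^ 2 + 5 * h) + 2 * R * (R + h) := add_le_add h3 e1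
      _ ≤ 5 * R ^ 2 := by nlinarith
  obtain ⟨w, hw, hw1⟩ := kinM_five hT
  rw [Set.mem_iUnion₂]
  refine ⟨(s, u, w), ?_, ?_, ?_, ?_⟩
  · unfold kinMIdx
    rw [Finset.mem_product, Finset.mem_product]
    refine ⟨?_, ?_, hw⟩
    · show s ∈ ({-1, 1} : Finset ℤ)
      rcases hs with rfl | rfl <;> decide
    · show u ∈ ({-1, 1} : Finset ℤ)
      rcases hu with rfl | rfl <;> decide
  · have e : X ω - (x + (s : ℝ) * R) = X ω - x - s * R := by ring
    show |X ω - (x + (s : ℝ) * R)| ≤ R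
    rw [e]
    exact hs1
  · have e : B ω - (b + (u : ℝ) * R) = B ω - b - u * R := by ring
    show |B ω - (b + (u : ℝ) * R)| ≤ R
    rw [e]
    exact hu1
  · show |Y ω - (y + 2 * (x + (s : ℝ) * R) * ((u : ℝ) * R) - (w : ℝ) * R ^ 2) - 2 * (x + (s : ℝ) * R) * (B ω - (b + (u : ℝ) * R))| ≤ R ^ 2
    have e : Y ω - (y + 2 * (x + (s : ℝ) * R) * ((u : ℝ) * R) - (w : ℝ) * R ^ 2) - 2 * (x + (s : ℝ) * R) * (B ω - (b + (u : ℝ) * R))
        = (Y ω - y - 2 * x * (B ω - b)) - 2 * s * R * (B ω - b) + w * R ^ 2 := by ring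
    rw [e]
    exact hw1

/-- **[M1]** -/
theorem kinM_cov : KinMCovC := by
  intro Ω _ μ _ X B Y κ R h hR hR1 hh h5 hreg x b y
  have hsub := kinM_cov_sub X B Y hR hR1 hh h5 x b y
  have h1 : μ (kinMBox X B Y x b y (R + h) (R + h) (R ^ 2 + 5 * h)) ≤
      ∑ p ∈ kinMIdx, μ (kinMBox X B Y (x + p.1 * R) (b + p.2.1 * R) (y + 2 * (x + p.1 * R) * (p.2.1 * R) - p.2.2 * R ^ 2) R R (R ^ 2)) :=
    (measure_mono hsub).trans (measure_biUnion_finset_le _ _)
  have hfin : ∑ p ∈ kinMIdx, μ (kinMBox X B Y (x + p.1 * R) (b + p.2.1 * R) (y + 2 * (x + p.1 * R) * (p.2.1 * R) - p.2.2 * R ^ 2) R R (R ^ 2)) ≠ ⊤ :=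
    ENNReal.sum_ne_top.2 fun p _ => measure_ne_top μ _
  calc (μ (kinMBox X B Y x b y (R + h) (R + h) (R ^ 2 + 5 * h))).toReal
      ≤ (∑ p ∈ kinMIdx, μ (kinMBox X B Y (x + p.1 * R) (b + p.2.1 * R) (y + 2 * (x + p.1 * R) * (p.2.1 * R) - p.2.2 * R ^ 2) R R (R ^ 2))).toReal :=
        ENNReal.toReal_mono hfin h1
    _ = ∑ p ∈ kinMIdx, (μ (kinMBox X B Y (x + p.1 * R) (b + p.2.1 * R) (y + 2 * (x + p.1 * R) * (p.2.1 * R) - p.2.2 * R ^ 2) R R (R ^ 2))).toReal :=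
        ENNReal.toReal_sum fun p _ => measure_ne_top μ _
    _ ≤ ∑ _p ∈ kinMIdx, κ * R ^ 3 := Finset.sum_le_sum fun p _ => hreg _ _ _
    _ = 20 * κ * R ^ 3 := by
        rw [Finset.sum_const, kinM_idx_card, nsmul_eq_mul]
        push_cast
        ring

/-- generates the equation lemmas of the definitions above in this file (rule 6: unique names) -/
theorem kinM_cov_eqns_cite : True := by
  have := @kinMIdx.eq_1
  trivial

end Claimed.Agent.R256
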