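import Claimed.Agent.R256.Kin.Defs

/-!
# Row 256, unit KIN: sub-contracts of [SUP] and the PLANS of all leaves.     Architect: helper132.  Prefix `kin`.

RULES.  One NEW file per leaf (name given below), `import Claimed.Agent.R256.Kin.Plans` (+ Mathlib through it), namespace `Claimed.Agent.R256`,
all new names start with the prefix of the leaf, no `sorry` landed, never edit `Defs/Plans/Glue`; a wrong contract: tell helper132 at once.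
`R = (1/2)^j`, `δ = (1/2)^k`.  `faG α β a ξ ζ = exp(-πα(ξ+aζ)²) exp(-πβζ²)`;  `RW.fa_gauss_K`: `faK (faG α β a) u v = (√α)⁻¹(√β)⁻¹ exp(-πu²/α) exp(-π(v-au)²/β)`;
`RW.fa_gauss_inner`, `RW.fa_int_gauss`, `RW.fa_integrable_gauss` (read `RW/FalcA.lean`, 315 lines).

[WIN]  `Kin/Win.lean`, prefix `kin_win`, `theorem kin_win : KinWinC`.
  `f : ContDiffBump (0:ℝ)` with `rIn = 1/64`, `rOut = 1/32`; `g : 𝓢(ℝ,ℂ) := HasCompactSupport.toSchwartzMap ..` of `s ↦ (f s : ℂ)`; `ψ = 64 f`, `θ t = 4096 ‖𝓕 g t‖²`.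
  corr: `SchwartzMap.integral_inner_fourier_fourier` for `g(·+a)` (again `toSchwartzMap`) and `g`; `𝓕 (g(·+a)) t = e^(2πiat) 𝓕 g t` (`Real.fourierIntegral_comp_add_right` or by hand:
  `integral_add_right_eq_self`); take real parts.  even: `f.neg` / substitution `s ↦ -s`.  low: `Re 𝓕 g t = ∫ f(s) cos(2πst) ds ≥ cos(π/8) ∫ f ≥ (1/2)(1/32)`.
  int: `(2+|t|)² ≤ 8 + 2t²`, `‖𝓕g‖² ≤ C‖𝓕g‖`, `SchwartzMap.integrable_pow_mul`.  cont: `SchwartzMap.continuous`.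
[PAIR] `Kin/Pair.lean`, prefix `kin_pair`, `theorem kin_pair : KinPairC`.
  (1) `kinPsi W b = ∫ θ(t) cos(2π t b) dt` (`W.corr`), `|kinPsi| ≤ ∫θ`, continuous in `b` (`continuous_of_dominated`);  `θ` integrable (from `θ_int`, `1 ≤ (2+|t|)²`).
  (2) `cos A · kinPsi b = ∫ θ(t) cos(A + 2π t b) dt`  (`cos_add`; `∫ θ(t) sin(2π t b) dt = 0`: odd integrand, `integral_comp_neg`/`θ_even`).
  (3) for fixed `ζ`: swap `ξ` and `t` (`integral_integral_swap`; `(ξ,t) ↦ faG ξ ζ · θ t · cos` is `Integrable.mul_prod` times a bounded continuous function), inner integral by `fa_gauss_inner`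
      with `X = dB+t dX`, `Y = dY+t dS`:  `∫ξ .. = ∫ t, θ t (√α)⁻¹ exp(-πu_t²/α) exp(-πβζ²) cos(2πζ(v_t - a u_t))`.
  (4) swap `ζ` and `t` in the same way, `fa_int_gauss`/`fa_gauss_K`.  Integrability in `ζ`: dominated by `(∫θ)(√α)⁻¹ exp(-πβζ²)`, measurability from the product integrability (`Integrable.integral_prod_left/right`).
[SQ]   `Kin/Sq.lean`, prefix `kin_sq`, `theorem kin_sq : KinSqC`.
  `s ↦ ψ(s+a)ψ(s+a')` continuous with compact support, hence integrable; `∫ ψ(s+a)ψ(s+a') ds = kinPsi (a-a')` (`integral_add_right_eq_self`, shift by `a'`);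
  expand the squares (`Finset.sum_mul_sum`, `sq`), `cos(φ-φ') = cos cos + sin sin`, `integral_finsetSum`.
[SEL]  `Kin/Sel.lean`, prefix `kin_sel`, `theorem kin_sel : KinSelC`.
  `A = {j | j = k ∨ kinCond ..}` contains `k`: `Nat.sInf_mem`, `Nat.sInf_le`, `Nat.notMem_of_lt_sInf`.  Ancestors: `⌊y/2⌋ = ⌊y⌋ / 2`, so `kinIdx j x' = kinIdx j x → ∀ j' ≤ j, kinIdx j' x' = kinIdx j' x`;
  hence the two sets `A` agree up to level `j = kinLev x`, so `kinLev x' = kinLev x`.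
  Weight: case `kinCond j n`: `R|ξ+2ζnR| ≤ 1`, and `2ζR = q'(right)-q'(left)` gives `|ζ|R² ≤ 1`: right side `≥ e^π e^(-2π/9) ≥ 1 ≥` left side.
  Case `j = k`: `|nδ| ≤ 1`, `(ξ+2xζ)² ≤ 2ξ²+8ζ²`, `(δ²/9)(2ξ²+8ζ²)+(δ⁴/9)ζ² ≤ δ²(ξ²+ζ²)`.
[OVL]  `Kin/Ovl.lean`, prefix `kin_ovl`, `theorem kin_ovl : KinOvlC`   (helper132).
  `T = T₀ ∪ T₊ ∪ T₋`: level 0 (≤ 3 classes: `n ∈ {-1,0,1}`), level ≥ 1 and `q'(x) ≥ 0` resp. `< 0` (≤ 2 classes each, `Finset.two_lt_card`).  Three points `x₁<x₂<x₃` of `T₊` in distinct classes: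
  the class `[l,r)` of `x₂` lies in `(x₁,x₃]`; `q' ≥ 0` on `[x₁,x₃]` (affine); parent fails: `1 < 2R·2(q'(l)+q'(r))`; `q(x₃)-q(x₁) ≥ q(r)-q(l) = R(q'(l)+q'(r))/2 > 1/8 > 2/32`.
[COV]  `Kin/Cov.lean`, prefix `kin_cov`, `theorem kin_cov : KinCovC`.
  `N = ⌊T⌋₊+1 ≤ T+1`; centres `b_a = b - TR + (2a+1)R`, `w_c = w - TR² + (2c+1)R²`, `a,c < N`; the big box is contained in the union of the `N²` boxes of `KinReg` with `(x, b_a, y = w_c + 2x b_a)`;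
  `∑_{i ∈ big} m ≤ ∑_{a,c} ∑_{i ∈ box a c} m` (choose `a = ⌊(B-b+TR)/(2R)⌋₊` capped at `N-1`; `Finset.sum_le_sum_of_subset_of_nonneg` after `Finset.sum_biUnion_le`-type bound, or map each `i` to its `(a,c)` and use `Finset.sum_fiberwise_of_maps_to`).
[KER]  `Kin/Ker.lean`, prefix `kin_ker`, `theorem kin_ker (hC : KinCovC) : KinKerC`.
  `fa_gauss_K`: kernel `= 9/R³ exp(-9πu²/R²) exp(-9π(v-2xu)²/R⁴)`, `u = ΔB+tΔX`, `v-2xu = (ΔY-2xΔB) + t((X_i-x)²-(X_i'-x)²)`, `0 ≤ X-x ≤ R` on the fibre.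
  `exp(-9πy²) ≤ e^π ∫ z, 1[|y-z| ≤ 1] exp(-πz²)`  (for `y ≥ 0` integrate over `[y-1,y]`, where `z² ≤ y²+1`; `y < 0` by symmetry or over `[y,y+1]`).
  Then `∑_{i'} m K ≤ 9e^(2π)/R³ ∫∫ e^(-πz²) e^(-πz'²) mass{|ΔB - zR| ≤ (1+|t|)R, |ΔY-2xΔB - z'R²| ≤ (1+|t|)R²} ≤ 9e^(2π)κ(2+|t|)²` by [COV] with `T = 1+|t|`; `∫ e^(-πz²) = 1` (`integral_gaussian`).
  A purely discrete variant (cells `⌊ΔB/R⌋`, geometric series) is equally welcome.
[SUP]  `Kin/Sup.lean`, prefix `kin_sup`, `theorem kin_sup (hK : KinKerC) : KinSupC`.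
  `kinE = ∑_{i∈S} m_i ∫ θ(t) ∑_{i'∈S} m_i' K dt` (`integral_finsetSum`, integrability: `θ` integrable times bounded continuous), `≤ ∑ m_i ∫ θ(t) 9e^(2π)κ(2+|t|)² dt`.
[LOW]  `Kin/Low.lean`, prefix `kin_low`, `theorem kin_low : KinLowC`.
  Pairwise: `∑_{n ≤ 2^k} 1[col at nδ] ≤ e^(18π) δ ∫ θ(t) δ⁻² exp(-πu_t²/δ²) exp(-πv_t²/δ²) dt`.  On `[nδ,(n+1)δ]`: `|u_t| ≤ δ+2δ`, `|v_t| ≤ δ+δ`, `θ ≥ 1`, so the integrand is `≥ δ⁻² e^(-18π)`;
  the intervals are adjacent in `[0,2]`: `∫_ℝ ≥ ∫_0^((2^k+1)δ) = ∑_n ∫_(nδ)^((n+1)δ)` (`intervalIntegral.sum_integral_adjacent_intervals`, `setIntegral_le_integral`-type monotonicity for a nonnegative integrable integrand).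
[MAIN] `Kin/Main.lean`: `theorem kin_main : KinMainC`   (helper132).
-/

set_option autoImplicit false

namespace Claimed.Agent.R256

open Finset MeasureTheory Real
open Claimed.Agent.RW (faG faK)

/-- [COV] a box of size `R × TR × TR²` is covered by `(T+1)²` regularity boxes -/
def KinCovC : Prop :=
  ∀ (ι : Type) [Fintype ι] (F : KinFam ι) (κ R : ℝ), 0 ≤ κ → 0 < R → KinReg F κ R → ∀ x b w T : ℝ, 0 ≤ T →
    ∑ i with (|F.X i - x| ≤ R ∧ |F.B i - b| ≤ T * R ∧ |F.Y i - 2 * x * F.B i - w| ≤ T * R ^ 2), F.m i ≤ κ * R ^ 3 * (T + 1) ^ 2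

/-- [KER] the kernel sum over a dyadic fibre at a fixed time -/
def KinKerC : Prop :=
  ∀ (ι : Type) [Fintype ι] (F : KinFam ι) (κ : ℝ) (j : ℕ) (n : ℤ), 0 ≤ κ → KinReg F κ ((1 / 2 : ℝ) ^ j) →
    ∀ i ∈ kinS F j n, ∀ t : ℝ,
      ∑ i' ∈ kinS F j n, F.m i' * faK (faG (((1 / 2 : ℝ) ^ j) ^ 2 / 9) (((1 / 2 : ℝ) ^ j) ^ 4 / 9) (2 * (n * (1 / 2 : ℝ) ^ j)))
        (F.B i - F.B i' + t * (F.X i - F.X i')) (F.Y i - F.Y i' + t * (F.X i ^ 2 - F.X i' ^ 2)) ≤ 9 * exp (2 * π) * κ * (2 + |t|) ^ 2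

/-- generates the equation lemmas of the definitions above in this file (rule 6: unique names) -/
theorem kin_plans_eqns_cite : True := by
  have := @KinCovC.eq_1
  have := @KinKerC.eq_1
  trivial

end Claimed.Agent.R256
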